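import Vale.Agent.P032.H515.Choice
import Vale.Agent.P032.S5.H80.Anti
import Vale.Agent.P032.S5.H360.Degree

/-!
# P032: single colour letters in the wild frame

* `Sw U T K a X W w` : `w j t sd io` (inner `io = 0`, outer `io = 1`) are chosen from the palette words `W` by `pick`;
  `exists_sw`, rules `Sw.wa`, `Sw.wc`, `Sw.wc2`, `Sw.w60`, `Sw.wpair`, `Sw.mem`, `Sw.glue_*`, `Sw.ci`, `Sw.co`,
  `Sw.exact`, `Sw.own`, `Sw.eq`, `Sw.not_three`.
* `pair_of_sub`, `crisp` : exact letters of a four coloured centre with two exact pairs.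
* `far_ds`, `near_ds`, `in_sector`, `in_ray`, `in_end_R`, `in_end_L`, `out_*` : the half planes of an exact letter.
-/

open Set Filter Topology Metric

noncomputable section

namespace Vale.Agent.P032.H515

open Vale.Agent.P032.Six Vale.Agent.P032.Words Vale.Agent.P032.S5.H767 Vale.Agent.P032.H892
  Vale.Agent.P032.H913 Vale.Agent.P032.H357 Vale.Agent.P032.H61 Vale.Agent.P032.H556

variable {U : Fin 6 → Set ℂ} {T : ℂ → Set (Fin 6)} {x : ℂ} {s : ℝ} {P Q : Set (Fin 6)} {p q c : Fin 6}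
variable {J : Type*} {K : ℕ} {a : ℕ → ℝ} {X : J → ℂ} {W : J → ℕ → ℕ → ℕ → Set (Fin 6)}
variable {w : J → ℕ → ℕ → ℕ → Fin 6}

/-! ### the letters -/

/-- the letters as a function of the palette words -/
def pw (U : Fin 6 → Set ℂ) (T : ℂ → Set (Fin 6)) (X : J → ℂ) (W : J → ℕ → ℕ → ℕ → Set (Fin 6)) (j : J)
    (t sd io : ℕ) : Fin 6 :=
  if io = 0 then (pick (W j t sd 0) (W j t sd 1) (Pal U (X j)) (T (X j))).1
  else (pick (W j t sd 0) (W j t sd 1) (Pal U (X j)) (T (X j))).2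

/-- single colour letters below the palette words -/
structure Sw (U : Fin 6 → Set ℂ) (T : ℂ → Set (Fin 6)) (K : ℕ) (a : ℕ → ℝ) (X : J → ℂ)
    (W : J → ℕ → ℕ → ℕ → Set (Fin 6)) (w : J → ℕ → ℕ → ℕ → Fin 6) : Prop where
  wp : Wp U T K a X W
  pk : ∀ j t sd, Pk (W j t sd 0) (W j t sd 1) (Pal U (X j)) (T (X j)) (w j t sd 0) (w j t sd 1)
  per : ∀ j t sd io, w j (t % (6 * K)) sd io = w j t sd io

theorem sw_pw (D : Wp U T K a X W) (h : Irr U T) : Sw U T K a X W (pw U T X W) where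
  wp := D
  pk := fun j t sd => by
    have h1 := pk_pick (wp_adm D h (j := j) (t := t) (sd := sd))
    unfold pw
    rw [if_pos rfl, if_neg (by norm_num)]
    exact h1
  per := fun j t sd io => by
    unfold pw
    rw [D.per, D.per]

theorem exists_sw (h : Irr U T) [Finite J] (A : Tick K a) (X : J → ℂ) : ∃ W w, Sw U T K a X W w := by
  obtain ⟨W, D⟩ := exists_Wp h A X
  exact ⟨W, _, sw_pw D h⟩

namespace Sw

variable (D : Sw U T K a X W w) {i j : J} {t sd : ℕ}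
include D

theorem mem0 : w j t sd 0 ∈ W j t sd 0 := (D.pk j t sd).inn

theorem mem1 : w j t sd 1 ∈ W j t sd 1 := (D.pk j t sd).out

/-- a letter of two equal colours has one colour -/
theorem eq (e : w j t sd 0 = w j t sd 1) : W j t sd 0 ∪ W j t sd 1 ⊆ {w j t sd 0} := (D.pk j t sd).eq e

/-- **(a)** -/
theorem wa (hp : w j t sd 0 ∈ Pal U (X j)) : w j t sd 0 ≠ w j t sd 1 := (D.pk j t sd).ne hp

/-- **(a)**, outer colour -/
theorem wa' (h : Irr U T) (hp : w j t sd 1 ∈ Pal U (X j)) : w j t sd 0 ≠ w j t sd 1 := fun e =>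
  D.wp.single h hp (by rw [← e]; exact D.eq e)

/-- **(c)** -/
theorem wc (hp : w j t sd 0 ∈ Pal U (X j)) : w j t sd 1 ∈ Pal U (X j) := (D.pk j t sd).own hp

/-- **(c2)** -/
theorem wc2 (h : Irr U T) (hq : w j t sd 1 ∈ Pal U (X j)) (hp : w j t sd 0 ∉ Pal U (X j)) :
    w j t sd 0 ∈ Pal U (X j + 2 * dir (a t)) :=
  wp_mirror D.wp h (Or.inr D.mem1) hq (Or.inl D.mem0) hp

/-- an own inner colour: the whole letter is own -/
theorem own (hp : w j t sd 0 ∈ Pal U (X j)) : W j t sd 0 ∪ W j t sd 1 ⊆ Pal U (X j) := (D.pk j t sd).all hp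

/-- **exact letters** -/
theorem exact (h0 : w j t sd 0 ∈ T (X j)) (h1 : w j t sd 1 ∈ T (X j)) :
    W j t sd 0 ∪ W j t sd 1 ⊆ T (X j) := (D.pk j t sd).ex h0 h1

/-- no exact letter at a point with at most three colours -/
theorem not_three (h : Irr U T) (h3 : (T (X j)).ncard ≤ 3) : ¬ (w j t sd 0 ∈ T (X j) ∧ w j t sd 1 ∈ T (X j)) := by
  rintro ⟨h0, h1⟩
  obtain ⟨m, hm, hm2⟩ := D.wp.foreign h (t := t) (sd := sd) h3
  exact hm2 (D.exact h0 h1 hm)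

theorem mem_T0 (h : Irr U T) : w j t sd 0 ∈ T (X j + dir (a t)) := D.wp.mem h (Or.inl D.mem0)

theorem mem_T1 (h : Irr U T) : w j t sd 1 ∈ T (X j + dir (a t)) := D.wp.mem h (Or.inr D.mem1)

/-- **(60)** -/
theorem w60 (h : Irr U T) (A : Tick K a) :
    (w j t sd 0 ≠ w j (t + K) sd 0 ∧ w j t sd 0 ≠ w j (t + K) sd 1) ∧
      (w j t sd 1 ≠ w j (t + K) sd 0 ∧ w j t sd 1 ≠ w j (t + K) sd 1) := by
  have h1 := D.wp.sixty h A (j := j) (t := t) (sd := sd)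
  exact ⟨⟨h1.ne_of_mem (Or.inl D.mem0) (Or.inl D.mem0), h1.ne_of_mem (Or.inl D.mem0) (Or.inr D.mem1)⟩,
    h1.ne_of_mem (Or.inr D.mem1) (Or.inl D.mem0), h1.ne_of_mem (Or.inr D.mem1) (Or.inr D.mem1)⟩

/-- **(pair)** -/
theorem wpair (h : Irr U T) (hx : dist (X i) (X j) = 1) :
    (w i t sd 0 ≠ w j t sd 0 ∧ w i t sd 0 ≠ w j t sd 1) ∧
      (w i t sd 1 ≠ w j t sd 0 ∧ w i t sd 1 ≠ w j t sd 1) := by
  have h1 := D.wp.pair h (t := t) (sd := sd) hx
  exact ⟨⟨h1.ne_of_mem (Or.inl D.mem0) (Or.inl D.mem0), h1.ne_of_mem (Or.inl D.mem0) (Or.inr D.mem1)⟩,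
    h1.ne_of_mem (Or.inr D.mem1) (Or.inl D.mem0), h1.ne_of_mem (Or.inr D.mem1) (Or.inr D.mem1)⟩

/-! glue -/

theorem glue_in_R : Cl (Sq T (w j t 1 0)) (X j + dir (a t)) a 3 t := D.wp.glue_in_R D.mem0

theorem glue_out_R : Cl (Sq T (w j t 1 1)) (X j + dir (a t)) a 2 t := D.wp.glue_out_R D.mem1

theorem glue_in_L (A : Tick K a) : Cl (Sq T (w j t 0 0)) (X j + dir (a t)) a 1 (t + 3 * K) :=
  D.wp.glue_in_L A D.mem0

theorem glue_out_L (A : Tick K a) : Cl (Sq T (w j t 0 1)) (X j + dir (a t)) a 2 (t + 3 * K) :=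
  D.wp.glue_out_L A D.mem1

/-! sources -/

theorem ci (h : Irr U T) (S : Ci U c (X j) (X j + dir (a t))) : w j t sd 1 ≠ c := fun e =>
  D.wp.ci h S (sd := sd) (e ▸ D.mem1)

theorem co (h : Irr U T) (S : Co U c (X j) (X j + dir (a t))) : w j t sd 0 ≠ c := fun e =>
  D.wp.co h S (sd := sd) (e ▸ D.mem0)

theorem ci_cell (h : Irr U T) (A : Tick K a) {k d : ℕ} (hk : k ≤ 3) (hd : d < 6 * K) (hin : InC K k d)
    (hs : So T (X j) a k (t + d) c) : w j t sd 1 ≠ c := fun e =>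
  D.wp.ci_cell h A hk hd hin hs (sd := sd) (e ▸ D.mem1)

theorem co_cell (h : Irr U T) (A : Tick K a) {k d : ℕ} (hk : k ≤ 3) (hd : d < 6 * K) (hout : ¬ InC K k d)
    (hs : So T (X j) a k (t + d) c) : w j t sd 0 ≠ c := fun e =>
  D.wp.co_cell h A hk hd hout hs (sd := sd) (e ▸ D.mem0)

end Sw

/-! ### exact letters of a centre with two exact pairs -/

section dpt
variable {e f b d : Fin 6}

theorem toArc (h : Irr U T) (I : IP U T x s P Q) : Arc T x (pt x s) (P ∪ Q) :=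
  ⟨dist_pt x s, by rw [← I.union h]; exact I.arc⟩

theorem dpt_ncard (hz : DPt T x e f b d) : (T x).ncard = 4 := by
  rw [hz.pal, Set.ncard_insert_of_notMem (by simp [hz.ab, hz.ac, hz.ad]),
    Set.ncard_insert_of_notMem (by simp [hz.bc, hz.bd]), Set.ncard_pair hz.cd]

/-- **an exact letter is one of the two pairs** -/
theorem pair_of_sub (h : Irr U T)
    (hmin : ∀ z, 4 ≤ (T z).ncard → ∀ s, s ⊆ T z → s ≠ T z →
      ¬ ∀ᶠ w in 𝓝 z, ∃ i ∈ s, w ∈ U i ∨ (w ∈ XX U ∧ i ∈ Pal U w))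
    (hz : DPt T x e f b d) (I : IP U T x s P Q) (hsub : P ∪ Q ⊆ T x) :
    P ∪ Q = {e, f} ∨ P ∪ Q = {b, d} := by
  have h4 := dpt_ncard hz
  obtain ⟨i, hi⟩ := I.p_ne h
  have hX : x ∈ XX U := I.mem_XX h (Or.inl hi) (hsub (Or.inl hi))
  have h2 := I.two h hX
  have h3 := I.two_of_sub h hsub
  have h5 : (T x \ (P ∪ Q)).ncard + (P ∪ Q).ncard = (T x).ncard :=
    Set.ncard_sdiff_add_ncard_of_subset hsub (Set.toFinite _)
  have h6 : (P ∪ Q).ncard = 2 := by omega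
  obtain ⟨g, hg⟩ := hz.arc1
  have hTg : T g = {e, f} := hg.mem
  have hun := I.union h
  have hsg : T g ⊆ T x := by
    rw [hTg, hz.pal]
    rintro m (rfl | rfl) <;> simp
  rcases h.pairs_disjoint hmin h4 hg.1 (dist_pt x s) hsg (by rw [hun]; exact hsub)
    (by rw [hTg]; exact Set.ncard_pair hz.ab) (by rw [hun]; exact h6) with k1 | k1
  · left; rw [← hun, ← k1, hTg]
  · right
    rw [hTg, hun] at k1
    refine Set.eq_of_subset_of_ncard_le (fun m hm => ?_) (by rw [h6, Set.ncard_pair hz.cd]) (Set.toFinite _)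
    have h7 := hsub hm
    rw [hz.pal] at h7
    have h8 : m ∉ ({e, f} : Set (Fin 6)) := fun h9 => (Set.disjoint_left.1 k1) h9 hm
    simp only [mem_insert_iff, mem_singleton_iff, not_or] at h7 h8 ⊢
    tauto

/-- the colours are on the sides `Sd` -/
theorem crisp_of (h : Irr U T) (I : IP U T x s P Q) {i o : Fin 6} (hL : P ∪ Q = {i, o})
    (hS : Sd U x (pt x s) i o) : P = {i} ∧ Q = {o} ∧ Sd U x (pt x s) i o ∧ Sd U (pt x s) x i o := by
  have hP : P ⊆ {i} := by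
    intro m hm
    obtain ⟨y, ⟨hy1, hy2⟩, hy3⟩ := (((I.inn m).1 hm).and_eventually hS).exists
    have h1 : m ∈ ({i, o} : Set (Fin 6)) := by rw [← hL]; exact Or.inl hm
    rcases h1 with h1 | h1
    · exact h1
    · rw [mem_singleton_iff] at h1
      subst h1
      exact absurd (h.sub y (by rw [hy1]; rfl)) (hy3.2 hy2)
  have hQ : Q ⊆ {o} := by
    intro m hm
    obtain ⟨y, ⟨hy1, hy2⟩, hy3⟩ := (((I.out m).1 hm).and_eventually hS).exists
    have h1 : m ∈ ({i, o} : Set (Fin 6)) := by rw [← hL]; exact Or.inr hm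
    rcases h1 with h1 | h1
    · subst h1
      exact absurd (h.sub y (by rw [hy1]; rfl)) (hy3.1 hy2)
    · exact h1
  have hA : Arc T x (pt x s) {i, o} := by rw [← hL]; exact toArc h I
  exact ⟨(I.p_ne h).subset_singleton_iff.1 hP, (I.q_ne h).subset_singleton_iff.1 hQ, hS, h.sd_center hA hS⟩

/-- **crisp sides of an exact letter** -/
theorem crisp (h : Irr U T) (hz : DPt T x e f b d) (I : IP U T x s P Q) (hL : P ∪ Q = {e, f}) :
    (P = {e} ∧ Q = {f} ∧ Sd U x (pt x s) e f ∧ Sd U (pt x s) x e f) ∨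
      (P = {f} ∧ Q = {e} ∧ Sd U x (pt x s) f e ∧ Sd U (pt x s) x f e) := by
  rcases h.sides hz (dist_pt x s) with h1 | h1
  · exact Or.inl (crisp_of h I hL h1)
  · exact Or.inr (crisp_of h I (by rw [hL, Set.pair_comm]) h1)

/-- **crisp sides**, for the colours of the letter -/
theorem crisp' (h : Irr U T) (hz : DPt T x e f b d) (I : IP U T x s P Q) (hL : P ∪ Q = {e, f})
    (hp : p ∈ P) (hq : q ∈ Q) :
    P = {p} ∧ Q = {q} ∧ Sd U x (pt x s) p q ∧ Sd U (pt x s) x p q := by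
  rcases crisp h hz I hL with ⟨h1, h2, h3, h4⟩ | ⟨h1, h2, h3, h4⟩ <;>
  · rw [h1, mem_singleton_iff] at hp
    rw [h2, mem_singleton_iff] at hq
    subst hp hq
    exact ⟨h1, h2, h3, h4⟩

/-- both pairs -/
theorem crisp_sub (h : Irr U T)
    (hmin : ∀ z, 4 ≤ (T z).ncard → ∀ s, s ⊆ T z → s ≠ T z →
      ¬ ∀ᶠ w in 𝓝 z, ∃ i ∈ s, w ∈ U i ∨ (w ∈ XX U ∧ i ∈ Pal U w))
    (hz : DPt T x e f b d) (I : IP U T x s P Q) (hsub : P ∪ Q ⊆ T x) (hp : p ∈ P) (hq : q ∈ Q) :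
    P = {p} ∧ Q = {q} ∧ p ≠ q ∧ Sd U x (pt x s) p q ∧ Sd U (pt x s) x p q := by
  have h3 := I.two_of_sub h hsub
  have key : P = {p} ∧ Q = {q} ∧ Sd U x (pt x s) p q ∧ Sd U (pt x s) x p q := by
    rcases pair_of_sub h hmin hz I hsub with h1 | h1
    · exact crisp' h hz I h1 hp hq
    · exact crisp' h hz.swap I h1 hp hq
  refine ⟨key.1, key.2.1, ?_, key.2.2⟩
  rintro rfl
  rw [key.1, key.2.1, Set.union_self, Set.ncard_singleton] at h3
  omega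

variable {l : Filter ℝ} {t : J → ℝ} {P Q : J → Set (Fin 6)} {S : Set ℂ} {θ : ℝ}

/-- **half planes**: the inner colour of an exact letter is absent away from the direction -/
theorem far_ds (F : FamP U T l X t P Q) (h : Irr U T)
    (hmin : ∀ z, 4 ≤ (T z).ncard → ∀ s, s ⊆ T z → s ≠ T z →
      ¬ ∀ᶠ w in 𝓝 z, ∃ i ∈ s, w ∈ U i ∨ (w ∈ XX U ∧ i ∈ Pal U w))
    {j : J} (hz : DPt T (X j) e f b d) (hsub : P j ∪ Q j ⊆ T (X j)) (hp : p ∈ P j)
    (hS : ∀ y ∈ S, p ∈ Pal U y) (hθ : θ ∈ DS S (X j))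
    (hc : ∀ᶠ τ in l, Real.cos ((θ - (t j + τ)) * (Real.pi / 3)) < 0) : False := by
  obtain ⟨τ, hτ, h1⟩ := F.exists_at hc
  have I := h1 j
  obtain ⟨o, ho⟩ := I.q_ne h
  have h2 := (crisp_sub h hmin hz I hsub hp ho).2.2.2.2
  have h3 := (tendsto_po (X j) θ).eventually h2
  have hθ : ∃ᶠ p in 𝓝 ((0 : ℝ), θ), p ∈ H357.PS S (X j) := hθ
  obtain ⟨v, ⟨⟨hv0, hv1⟩, hv2⟩, hv3⟩ := ((hθ.and_eventually h3).and_eventually (ev_out (x := X j) hτ)).exists
  exact hv2.1 (hv3 hv0) (hS _ hv1)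

/-- **half planes**: the outer colour of an exact letter is absent towards the direction -/
theorem near_ds (F : FamP U T l X t P Q) (h : Irr U T)
    (hmin : ∀ z, 4 ≤ (T z).ncard → ∀ s, s ⊆ T z → s ≠ T z →
      ¬ ∀ᶠ w in 𝓝 z, ∃ i ∈ s, w ∈ U i ∨ (w ∈ XX U ∧ i ∈ Pal U w))
    {j : J} (hz : DPt T (X j) e f b d) (hsub : P j ∪ Q j ⊆ T (X j)) (hq : q ∈ Q j)
    (hS : ∀ y ∈ S, q ∈ Pal U y) (hθ : θ ∈ DS S (X j))
    (hc : ∀ᶠ τ in l, 0 < Real.cos ((θ - (t j + τ)) * (Real.pi / 3))) : False := by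
  obtain ⟨τ, hτ, h1⟩ := F.exists_at hc
  have I := h1 j
  obtain ⟨o, ho⟩ := I.p_ne h
  have h2 := (crisp_sub h hmin hz I hsub ho hq).2.2.2.2
  have h3 := (tendsto_po (X j) θ).eventually h2
  have hθ : ∃ᶠ p in 𝓝 ((0 : ℝ), θ), p ∈ H357.PS S (X j) := hθ
  obtain ⟨v, ⟨⟨hv0, hv1⟩, hv2⟩, hv3⟩ := ((hθ.and_eventually h3).and_eventually (ev_in (x := X j) hτ)).exists
  exact hv2.2 (hv3 hv0) (hS _ hv1)

end dpt

/-! ### the half planes in index form -/

namespace Sw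

variable (D : Sw U T K a X W w) {j : J} {t sd : ℕ} {e f b d : Fin 6} {S : Set ℂ}
include D

/-- **an exact letter is one of the two pairs** -/
theorem pair (h : Irr U T)
    (hmin : ∀ z, 4 ≤ (T z).ncard → ∀ s, s ⊆ T z → s ≠ T z →
      ¬ ∀ᶠ w in 𝓝 z, ∃ i ∈ s, w ∈ U i ∨ (w ∈ XX U ∧ i ∈ Pal U w))
    (hz : DPt T (X j) e f b d) (h0 : w j t sd 0 ∈ T (X j)) (h1 : w j t sd 1 ∈ T (X j)) :
    (({w j t sd 0, w j t sd 1} : Set (Fin 6)) = {e, f} ∨ ({w j t sd 0, w j t sd 1} : Set (Fin 6)) = {b, d}) ∧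
      W j t sd 0 = {w j t sd 0} ∧ W j t sd 1 = {w j t sd 1} ∧ w j t sd 0 ≠ w j t sd 1 := by
  obtain ⟨τ, hτ⟩ := (D.wp.fam sd).some_at
  have I := hτ (j, t)
  have hsub := D.exact h0 h1
  have h2 := crisp_sub h hmin hz I hsub D.mem0 D.mem1
  simp only at h2
  refine ⟨?_, h2.1, h2.2.1, h2.2.2.1⟩
  have h3 := pair_of_sub h hmin hz I hsub
  simp only at h3
  rwa [h2.1, h2.2.1, Set.singleton_union] at h3

section
variable (h : Irr U T)
    (hmin : ∀ z, 4 ≤ (T z).ncard → ∀ s, s ⊆ T z → s ≠ T z →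
      ¬ ∀ᶠ w in 𝓝 z, ∃ i ∈ s, w ∈ U i ∨ (w ∈ XX U ∧ i ∈ Pal U w))
    (hz : DPt T (X j) e f b d) (h0 : w j t sd 0 ∈ T (X j)) (h1 : w j t sd 1 ∈ T (X j))
include h hmin hz h0 h1

theorem far (hS : ∀ y ∈ S, w j t sd 0 ∈ Pal U y) {θ : ℝ} (hθ : θ ∈ DS S (X j))
    (hc : ∀ᶠ τ in sdf sd, 3 / 2 < θ - a t - τ ∧ θ - a t - τ < 9 / 2) : False :=
  far_ds (D.wp.fam sd) h hmin (j := (j, t)) hz (D.exact h0 h1) D.mem0 hS hθ (hc.mono fun τ hτ =>
    neg_of (by linarith [hτ.1]) (by linarith [hτ.2]))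

theorem near (hS : ∀ y ∈ S, w j t sd 1 ∈ Pal U y) {θ : ℝ} (hθ : θ ∈ DS S (X j))
    (hc : ∀ᶠ τ in sdf sd, 9 / 2 < θ - a t - τ ∧ θ - a t - τ < 15 / 2) : False :=
  near_ds (D.wp.fam sd) h hmin (j := (j, t)) hz (D.exact h0 h1) D.mem1 hS hθ (hc.mono fun τ hτ =>
    CK.cos_pos_six (by linarith [hτ.1]) (by linarith [hτ.2]))

/-- inner colour, sectors away from the direction -/
theorem in_sector (A : Tick K a) (hS : ∀ y ∈ S, w j t sd 0 ∈ Pal U y) {d' : ℕ} (hd : d' < 3 * K) :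
    ¬ Cl S (X j) a 0 (t + d') := by
  intro hc
  obtain ⟨θ, hθ, h2⟩ := cl_zero.1 hc
  have h3 := CK.ra_le A (show t ≤ t + d' by omega)
  have h4 := CK.ra_le A (show t + d' + 1 ≤ t + 3 * K by omega)
  rw [CK.ra_half A] at h4
  have h5 : ra a t = a t + 3 / 2 := rfl
  exact D.far h hmin hz h0 h1 hS h2 (ev_mem (sdf_side sd) (by linarith [hθ.1]) (by linarith [hθ.2]))

/-- inner colour, rays away from the direction -/
theorem in_ray (A : Tick K a) (hS : ∀ y ∈ S, w j t sd 0 ∈ Pal U y) {d' k : ℕ} (hd1 : 1 ≤ d') (hd : d' < 3 * K)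
    (hk : k ≠ 0) : ¬ Cl S (X j) a k (t + d') := by
  intro hc
  have h3 := CK.ra_lt A (show t < t + d' by omega)
  have h4 := CK.ra_lt A (show t + d' < t + 3 * K by omega)
  rw [CK.ra_half A] at h4
  have h5 : ra a t = a t + 3 / 2 := rfl
  exact D.far h hmin hz h0 h1 hS (cl_ray hk hc) (ev_mem (sdf_side sd) (by linarith) (by linarith))

/-- outer colour, sectors towards the direction -/
theorem out_sector (A : Tick K a) (hS : ∀ y ∈ S, w j t sd 1 ∈ Pal U y) {d' : ℕ} (hd : 3 * K ≤ d')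
    (hd2 : d' < 6 * K) : ¬ Cl S (X j) a 0 (t + d') := by
  intro hc
  obtain ⟨θ, hθ, h2⟩ := cl_zero.1 hc
  have h3 := CK.ra_le A (show t + 3 * K ≤ t + d' by omega)
  have h4 := CK.ra_le A (show t + d' + 1 ≤ t + 6 * K by omega)
  rw [CK.ra_half A] at h3
  rw [CK.ra_full A] at h4
  have h5 : ra a t = a t + 3 / 2 := rfl
  exact D.near h hmin hz h0 h1 hS h2 (ev_mem (sdf_side sd) (by linarith [hθ.1]) (by linarith [hθ.2]))

/-- outer colour, rays towards the direction -/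
theorem out_ray (A : Tick K a) (hS : ∀ y ∈ S, w j t sd 1 ∈ Pal U y) {d' k : ℕ} (hd1 : 3 * K < d')
    (hd : d' < 6 * K) (hk : k ≠ 0) : ¬ Cl S (X j) a k (t + d') := by
  intro hc
  have h3 := CK.ra_lt A (show t + 3 * K < t + d' by omega)
  have h4 := CK.ra_lt A (show t + d' < t + 6 * K by omega)
  rw [CK.ra_half A] at h3
  rw [CK.ra_full A] at h4
  have h5 : ra a t = a t + 3 / 2 := rfl
  exact D.near h hmin hz h0 h1 hS (cl_ray hk hc) (ev_mem (sdf_side sd) (by linarith) (by linarith))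

end

section
variable (h : Irr U T)
    (hmin : ∀ z, 4 ≤ (T z).ncard → ∀ s, s ⊆ T z → s ≠ T z →
      ¬ ∀ᶠ w in 𝓝 z, ∃ i ∈ s, w ∈ U i ∨ (w ∈ XX U ∧ i ∈ Pal U w))
    (hz : DPt T (X j) e f b d)
include h hmin hz

/-- after: the ray `t + 3 K`, inner colour -/
theorem in_end_R (h0 : w j t 1 0 ∈ T (X j)) (h1 : w j t 1 1 ∈ T (X j)) (A : Tick K a)
    (hS : ∀ y ∈ S, w j t 1 0 ∈ Pal U y) {k : ℕ} (hk : k ≠ 0) : ¬ Cl S (X j) a k (t + 3 * K) := by
  intro hc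
  have h2 := cl_ray hk hc
  rw [CK.ra_half A] at h2
  have h5 : ra a t = a t + 3 / 2 := rfl
  refine D.far h hmin hz h0 h1 hS h2 ?_
  rw [sdf_one]
  filter_upwards [Ioo_mem_nhdsGT (one_pos : (0 : ℝ) < 1)] with τ hτ
  constructor <;> linarith [hτ.1, hτ.2]

/-- before: the ray `t`, inner colour -/
theorem in_end_L (h0 : w j t 0 0 ∈ T (X j)) (h1 : w j t 0 1 ∈ T (X j))
    (hS : ∀ y ∈ S, w j t 0 0 ∈ Pal U y) {k : ℕ} (hk : k ≠ 0) : ¬ Cl S (X j) a k t := by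
  intro hc
  have h2 := cl_ray hk hc
  have h5 : ra a t = a t + 3 / 2 := rfl
  refine D.far h hmin hz h0 h1 hS h2 ?_
  rw [sdf_ne (by norm_num)]
  filter_upwards [Ioo_mem_nhdsLT (by norm_num : (-1 : ℝ) < 0)] with τ hτ
  constructor <;> linarith [hτ.1, hτ.2]

/-- after: the ray `t`, outer colour -/
theorem out_end_R (h0 : w j t 1 0 ∈ T (X j)) (h1 : w j t 1 1 ∈ T (X j))
    (hS : ∀ y ∈ S, w j t 1 1 ∈ Pal U y) {k : ℕ} (hk : k ≠ 0) : ¬ Cl S (X j) a k t := by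
  intro hc
  have h2 := ds_six.2 (cl_ray hk hc)
  have h5 : ra a t = a t + 3 / 2 := rfl
  refine D.near h hmin hz h0 h1 hS h2 ?_
  rw [sdf_one]
  filter_upwards [Ioo_mem_nhdsGT (one_pos : (0 : ℝ) < 1)] with τ hτ
  constructor <;> linarith [hτ.1, hτ.2]

/-- before: the ray `t + 3 K`, outer colour -/
theorem out_end_L (h0 : w j t 0 0 ∈ T (X j)) (h1 : w j t 0 1 ∈ T (X j)) (A : Tick K a)
    (hS : ∀ y ∈ S, w j t 0 1 ∈ Pal U y) {k : ℕ} (hk : k ≠ 0) : ¬ Cl S (X j) a k (t + 3 * K) := by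
  intro hc
  have h2 := cl_ray hk hc
  rw [CK.ra_half A] at h2
  have h5 : ra a t = a t + 3 / 2 := rfl
  refine D.near h hmin hz h0 h1 hS h2 ?_
  rw [sdf_ne (by norm_num)]
  filter_upwards [Ioo_mem_nhdsLT (by norm_num : (-1 : ℝ) < 0)] with τ hτ
  constructor <;> linarith [hτ.1, hτ.2]

end

end Sw

end Vale.Agent.P032.H515
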