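import Vale.Agent.P032.H556.Wp2

/-!
# P032: one colour pair from the inner and the outer colours (wild frame)

* `Pk P Q N M i o` : `(i, o)` is a good pair for the inner colours `P`, the outer colours `Q`, `N = Pal x`, `M = T x`.
* `Adm`, `exists_pk`, `pick`, `pk_pick` : existence, and a fixed function of the four sets.
* `mate`, `mirror` : the rules of the mixed letter for the sets of `H556.IP`.
* `pw` : the single colour letters of `H556.Wp`; `wa`, `wc`, `wc2`, `w60`, `wpair`, `wglue`, `exact`, `ci_in`, `co_out`.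
-/

open Set Filter Topology Metric

noncomputable section

namespace Vale.Agent.P032.H515

open Vale.Agent.P032.Six Vale.Agent.P032.Words Vale.Agent.P032.S5.H767 Vale.Agent.P032.H892
  Vale.Agent.P032.H913 Vale.Agent.P032.H357 Vale.Agent.P032.H61 Vale.Agent.P032.H556

/-- `(i, o)` is a good pair for the inner colours `P`, the outer colours `Q`, `N = Pal x`, `M = T x` -/
structure Pk (P Q N M : Set (Fin 6)) (i o : Fin 6) : Prop where
  inn : i ∈ P
  out : o ∈ Q
  /-- two different colours unless the letter has one colour -/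
  eq : i = o → P ∪ Q ⊆ {i}
  ne : i ∈ N → i ≠ o
  own : i ∈ N → o ∈ N
  /-- a foreign inner colour is preferred -/
  all : i ∈ N → P ∪ Q ⊆ N
  /-- both colours in `M` only for an exact letter -/
  ex : i ∈ M → o ∈ M → P ∪ Q ⊆ M

/-- what the sets of a generic point satisfy -/
structure Adm (P Q N M : Set (Fin 6)) : Prop where
  p_ne : P.Nonempty
  q_ne : Q.Nonempty
  sub : M ⊆ N
  single : ∀ c ∈ N, ¬ P ∪ Q ⊆ {c}
  mate : ∀ c ∈ P ∪ Q, c ∈ N → Q ⊆ N

/-- two different colours, one of them `m` -/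
theorem exists_ne {P Q : Set (Fin 6)} (hP : P.Nonempty) (hQ : Q.Nonempty) {m : Fin 6} (hm : m ∈ P ∪ Q)
    (h1 : ¬ P ∪ Q ⊆ {m}) :
    ∃ io : Fin 6 × Fin 6, io.1 ∈ P ∧ io.2 ∈ Q ∧ io.1 ≠ io.2 ∧ (io.1 = m ∨ io.2 = m) := by
  obtain ⟨p0, hp0⟩ := hP
  obtain ⟨q0, hq0⟩ := hQ
  obtain ⟨c, hc, hcm⟩ := not_subset.1 h1
  have hcm : c ≠ m := hcm
  rcases hm with hm | hm
  · by_cases h2 : ∃ o ∈ Q, o ≠ m
    · obtain ⟨o, ho, hom⟩ := h2
      exact ⟨(m, o), hm, ho, fun e => hom e.symm, Or.inl rfl⟩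
    · push Not at h2
      have hmQ : m ∈ Q := (h2 q0 hq0) ▸ hq0
      have hcP : c ∈ P := hc.resolve_right fun hcQ => hcm (h2 c hcQ)
      exact ⟨(c, m), hcP, hmQ, hcm, Or.inr rfl⟩
  · by_cases h2 : ∃ i ∈ P, i ≠ m
    · obtain ⟨i, hi, him⟩ := h2
      exact ⟨(i, m), hi, hm, him, Or.inr rfl⟩
    · push Not at h2
      have hmP : m ∈ P := (h2 p0 hp0) ▸ hp0
      have hcQ : c ∈ Q := hc.resolve_left fun hcP => hcm (h2 c hcP)
      exact ⟨(m, c), hmP, hcQ, fun e => hcm e.symm, Or.inl rfl⟩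

/-- **Existence** -/
theorem exists_pk {P Q N M : Set (Fin 6)} (h : Adm P Q N M) : ∃ io : Fin 6 × Fin 6, Pk P Q N M io.1 io.2 := by
  obtain ⟨p0, hp0⟩ := h.p_ne
  obtain ⟨q0, hq0⟩ := h.q_ne
  by_cases h0 : ∃ c ∈ P ∪ Q, c ∈ N
  · obtain ⟨c0, hc0, hc0N⟩ := h0
    have hQN : Q ⊆ N := h.mate c0 hc0 hc0N
    by_cases h1 : ∃ c ∈ P, c ∉ N
    · obtain ⟨c, hc, hcN⟩ := h1
      exact ⟨(c, q0), hc, hq0, fun e => absurd (hQN hq0) ((show c = q0 from e) ▸ hcN), fun hh => absurd hh hcN,
        fun hh => absurd hh hcN, fun hh => absurd hh hcN, fun hh => absurd (h.sub hh) hcN⟩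
    push Not at h1
    have hPQ : P ∪ Q ⊆ N := union_subset (fun c hc => h1 c hc) hQN
    by_cases h2 : P ∪ Q ⊆ M
    · obtain ⟨io, h3, h4, h5, -⟩ := exists_ne h.p_ne h.q_ne (Or.inl hp0) (h.single p0 (h1 p0 hp0))
      exact ⟨io, h3, h4, fun e => absurd e h5, fun _ => h5, fun _ => hQN h4, fun _ => hPQ, fun _ _ => h2⟩
    · obtain ⟨m, hm, hmM⟩ := not_subset.1 h2
      obtain ⟨io, h3, h4, h5, h6⟩ := exists_ne h.p_ne h.q_ne hm (h.single m (hPQ hm))
      refine ⟨io, h3, h4, fun e => absurd e h5, fun _ => h5, fun _ => hQN h4, fun _ => hPQ, fun h7 h8 => ?_⟩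
      rcases h6 with h6 | h6
      · exact absurd (h6 ▸ h7) hmM
      · exact absurd (h6 ▸ h8) hmM
  · push Not at h0
    by_cases h2 : P ∪ Q ⊆ {p0}
    · have hq : q0 = p0 := h2 (Or.inr hq0)
      have hp : p0 ∉ N := h0 p0 (Or.inl hp0)
      exact ⟨(p0, q0), hp0, hq0, fun _ => h2, fun hh => absurd hh hp, fun hh => absurd hh hp,
        fun hh => absurd hh hp, fun hh => absurd (h.sub hh) hp⟩
    · obtain ⟨io, h3, h4, h5, -⟩ := exists_ne h.p_ne h.q_ne (Or.inl hp0) h2
      have hp : io.1 ∉ N := h0 _ (Or.inl h3)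
      exact ⟨io, h3, h4, fun e => absurd e h5, fun hh => absurd hh hp, fun hh => absurd hh hp,
        fun hh => absurd hh hp, fun hh => absurd (h.sub hh) hp⟩

open Classical in
/-- the pair, a fixed function of the sets -/
def pick (P Q N M : Set (Fin 6)) : Fin 6 × Fin 6 :=
  if h : ∃ io : Fin 6 × Fin 6, Pk P Q N M io.1 io.2 then h.choose else (0, 0)

theorem pk_pick {P Q N M : Set (Fin 6)} (h : Adm P Q N M) :
    Pk P Q N M (pick P Q N M).1 (pick P Q N M).2 := by
  have h1 := exists_pk h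
  unfold pick
  rw [dif_pos h1]
  exact h1.choose_spec

variable {U : Fin 6 → Set ℂ} {T : ℂ → Set (Fin 6)} {x : ℂ} {s : ℝ} {P Q : Set (Fin 6)} {p q c : Fin 6}

/-- if the mirror arc carries the colour `q` then no pure points of `q` are just outside -/
theorem no_outer (h : Irr U T) (hX : ∀ᶠ v in 𝓝 s, q ∈ Pal U (2 * pt x v - x))
    (hout : ∃ᶠ y in 𝓝 (pt x s), T y = {q} ∧ 1 < dist y x) : False := by
  obtain ⟨η, hη, hball⟩ := Metric.mem_nhds_iff.1 hX
  set η' := min η 1 with hη'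
  have hη0 : 0 < η' := lt_min hη one_pos
  have hball' : ∀ v ∈ ball s η', q ∈ Pal U (2 * pt x v - x) := fun v hv =>
    hball (ball_subset_ball (min_le_left _ _) hv)
  have hQ : IsPreconnected ((fun v => 2 * pt x v - x) '' ball s η') :=
    (convex_ball s η').isPreconnected.image _
      ((continuous_const.mul (continuous_pt x)).sub continuous_const).continuousOn
  have hQF : (fun v => 2 * pt x v - x) '' ball s η' ⊆ closure (U q) := by
    rintro _ ⟨v, hv, rfl⟩
    exact hball' v hv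
  -- the far point
  set v1 := s + η' / 2 with hv1
  have hm1 : v1 ∈ ball s η' := by
    rw [mem_ball, Real.dist_eq, hv1, add_sub_cancel_left, abs_of_pos (by linarith)]; linarith
  have hfar : 1 < dist (2 * pt x v1 - x) (pt x s) := by
    have e0 : dist (2 * pt x v1 - x) (pt x s) ^ 2 =
        5 - 4 * Real.cos (v1 * (Real.pi / 3) - s * (Real.pi / 3)) := by
      rw [sq_dist]
      unfold pt
      have k1 : (2 * (x + cis (v1 * (Real.pi / 3))) - x : ℂ) = x + 2 * cis (v1 * (Real.pi / 3)) := by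
        ring
      rw [k1]
      simp only [Complex.add_re, Complex.add_im, Complex.mul_re, Complex.mul_im, Complex.re_ofNat,
        Complex.im_ofNat, cis_re, cis_im]
      rw [Real.cos_sub]
      have h1 := Real.sin_sq_add_cos_sq (v1 * (Real.pi / 3))
      have h2 := Real.sin_sq_add_cos_sq (s * (Real.pi / 3))
      linear_combination 4 * h1 + h2
    have hle : η' ≤ 1 := min_le_right _ _
    have hpi := Real.pi_pos
    have e1 : v1 * (Real.pi / 3) - s * (Real.pi / 3) = η' / 2 * (Real.pi / 3) := by rw [hv1]; ring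
    have h3 : Real.cos (v1 * (Real.pi / 3) - s * (Real.pi / 3)) < 1 := by
      rw [e1, ← Real.cos_zero]
      exact Real.cos_lt_cos_of_nonneg_of_le_pi le_rfl (by nlinarith) (by positivity)
    have h4 : 1 < dist (2 * pt x v1 - x) (pt x s) ^ 2 := by rw [e0]; linarith
    by_contra hcon
    push Not at hcon
    have := dist_nonneg (x := 2 * pt x v1 - x) (y := pt x s)
    nlinarith
  have hfar' : ∀ᶠ y in 𝓝 (pt x s), 1 < dist (2 * pt x v1 - x) y :=
    (continuous_const.dist continuous_id).continuousAt.eventually_const_lt hfar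
  -- the near point
  have hc1 : ∀ᶠ w in 𝓝[sphere x 1] (pt x s), ∃ v ∈ ball s η', w = pt x v :=
    ev_circle x (by
      filter_upwards [ball_mem_nhds s hη0] with v hv
      exact ⟨v, hv, rfl⟩)
  have hne0 : (dist (pt x s) x : ℂ) ≠ 0 := by rw [dist_pt]; simp
  have hc2 : ContinuousAt (fun y : ℂ => x + (y - x) / (dist y x : ℂ)) (pt x s) := by
    have k1 : ContinuousAt (fun y : ℂ => (y - x)) (pt x s) := by fun_prop
    have k2 : ContinuousAt (fun y : ℂ => ((dist y x : ℝ) : ℂ)) (pt x s) := by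
      have : Continuous fun y : ℂ => ((dist y x : ℝ) : ℂ) :=
        Complex.continuous_ofReal.comp (continuous_id.dist continuous_const)
      exact this.continuousAt
    exact continuousAt_const.add (k1.div k2 hne0)
  have hval : x + (pt x s - x) / (dist (pt x s) x : ℂ) = pt x s := by
    rw [dist_pt]; simp
  have hc3 : Tendsto (fun y : ℂ => x + (y - x) / (dist y x : ℂ)) (𝓝 (pt x s))
      (𝓝[sphere x 1] (pt x s)) := by
    refine tendsto_nhdsWithin_of_tendsto_nhds_of_eventually_within _ ?_ ?_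
    · have := hc2.tendsto
      rwa [hval] at this
    · have h5 : ∀ᶠ y in 𝓝 (pt x s), y ≠ x := by
        refine isOpen_ne.mem_nhds ?_
        intro h6
        have := dist_pt x s
        rw [h6, dist_self] at this
        exact zero_ne_one this
      filter_upwards [h5] with y hy
      have hpos : 0 < dist y x := dist_pos.2 hy
      show dist (x + (y - x) / (dist y x : ℂ)) x = 1
      rw [dist_eq_norm, add_sub_cancel_left, norm_div, Complex.norm_real, ← dist_eq_norm,
        Real.norm_of_nonneg hpos.le, div_self hpos.ne']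
  have hlt : ∀ᶠ y in 𝓝 (pt x s), dist y x < 3 :=
    (continuous_id.dist continuous_const).continuousAt.eventually_lt_const
      (by simp only [id_eq, dist_pt]; norm_num)
  obtain ⟨y, ⟨hy1, hy2⟩, hy3, ⟨v, hv, hv'⟩, hy5⟩ :=
    (hout.and_eventually (hfar'.and ((hc3.eventually hc1).and hlt))).exists
  have hyq : q ∈ Pal U y := h.sub y (by rw [hy1]; rfl)
  refine h.mx.wlemma hQ hQF (z := y) ⟨v, hv, rfl⟩ ⟨v1, hm1, rfl⟩ ?_ hy3 hyq
  show dist (2 * pt x v - x) y < 1
  rw [← hv']
  have hpos : 0 < dist y x := by linarith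
  have hne : ((dist y x : ℝ) : ℂ) ≠ 0 := by exact_mod_cast hpos.ne'
  have e1 : 2 * (x + (y - x) / (dist y x : ℂ)) - x - y =
      (((2 - dist y x) / dist y x : ℝ) : ℂ) * (y - x) := by
    push_cast
    field_simp
    ring
  rw [dist_eq_norm, e1, norm_mul, Complex.norm_real, ← dist_eq_norm, Real.norm_eq_abs, abs_div,
    abs_of_pos hpos, div_mul_cancel₀ _ hpos.ne', abs_lt]
  constructor <;> linarith

/-- **mixed letters**: an outer colour is a colour of `x` if some colour of the letter is -/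
theorem mate (h : Irr U T) (I : IP U T x s P Q) (hp : p ∈ P ∪ Q) (hpN : p ∈ Pal U x) (hq : q ∈ Q) :
    q ∈ Pal U x := by
  by_contra hqN
  have hun := I.union h
  have hX : ∀ᶠ v in 𝓝 s, q ∈ Pal U (2 * pt x v - x) := by
    filter_upwards [I.loc, I.loc.eventually_nhds] with v hv hv2
    have h1 : pt x v ∈ XX U := h.mem_XX (dist_pt x v) (by rw [hv, hun]; exact hp) hpN
    obtain ⟨V, hzV, hV⟩ : ∃ V, dist (pt x v) V = 1 ∧ q ∈ Pal U V := h.partner_XX h1 q
    have harc : ∀ᶠ y in 𝓝[sphere x 1] (pt x v), q ∈ Pal U y := by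
      have h3 : ∀ᶠ v' in 𝓝 v, q ∈ Pal U (pt x v') := by
        filter_upwards [hv2] with v' hv'
        exact h.sub _ (by rw [hv', hun]; exact Or.inr hq)
      exact ev_circle x h3
    rcases h.mx.partner_line (dist_pt x v) harc hzV hV with h3 | h3
    · rw [h3] at hV; exact absurd hV hqN
    · have : V = 2 * pt x v - x := by rw [← h3]; ring
      rwa [this] at hV
  exact no_outer h hX ((I.out q).1 hq)

/-- **mixed letters**: a foreign colour of a letter with a colour of `x` is a colour of the mirror point -/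
theorem mirror (h : Irr U T) (I : IP U T x s P Q) (hr : c ∈ P ∪ Q) (hrN : c ∈ Pal U x) (hp : p ∈ P ∪ Q)
    (hpN : p ∉ Pal U x) : p ∈ Pal U (2 * pt x s - x) := by
  have hun := I.union h
  have h1 : pt x s ∈ XX U := h.mem_XX (dist_pt _ _) (by rw [hun]; exact hr) hrN
  have hpv : p ∈ T (pt x s) := by rw [hun]; exact hp
  obtain ⟨V, hzV, hV⟩ : ∃ V, dist (pt x s) V = 1 ∧ p ∈ Pal U V := h.partner_XX h1 p
  have harc : ∀ᶠ y in 𝓝[sphere x 1] (pt x s), p ∈ Pal U y :=
    I.arc.mono fun y hy => h.sub y (by rw [hy]; exact hpv)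
  rcases h.mx.partner_line (dist_pt _ _) harc hzV hV with h3 | h3
  · rw [h3] at hV; exact absurd hV hpN
  · have : V = 2 * pt x s - x := by rw [← h3]; ring
    rwa [this] at hV

theorem adm (h : Irr U T) (I : IP U T x s P Q) : Adm P Q (Pal U x) (T x) where
  p_ne := I.p_ne h
  q_ne := I.q_ne h
  sub := h.sub x
  single := fun _ hc => I.single h hc
  mate := fun _ hc hcN _ hq => mate h I hc hcN hq

/-! ### families -/

section fam
variable {J : Type*} {l : Filter ℝ} {X : J → ℂ} {t : J → ℝ} {P Q : J → Set (Fin 6)}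
variable (F : FamP U T l X t P Q) {j : J}
include F

/-- **mixed letters**, families -/
theorem fam_mate (h : Irr U T) (hp : p ∈ P j ∪ Q j) (hpN : p ∈ Pal U (X j)) (hq : q ∈ Q j) :
    q ∈ Pal U (X j) := by
  obtain ⟨τ, h1⟩ := F.some_at
  exact mate h (h1 j) hp hpN hq

/-- **far rule**, families: a foreign colour of a letter with a colour of `X j` is a colour of the mirror point -/
theorem fam_mirror (h : Irr U T) (hl : Side l) (hr : c ∈ P j ∪ Q j) (hrN : c ∈ Pal U (X j))
    (hp : p ∈ P j ∪ Q j) (hpN : p ∉ Pal U (X j)) : p ∈ Pal U (2 * pt (X j) (t j) - X j) := by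
  have h1 : ∃ᶠ τ in l, p ∈ Pal U (2 * pt (X j) (t j + τ) - X j) :=
    F.mono fun τ hτ => mirror h (hτ j) hr hrN hp hpN
  have h2 : Tendsto (fun τ : ℝ => 2 * pt (X j) (t j + τ) - X j) l (𝓝 (2 * pt (X j) (t j) - X j)) := by
    have h3 := tendsto_pt_shift hl (X j) (t j)
    exact (h3.const_mul 2).sub_const _
  exact isClosed_closure.mem_of_frequently_of_tendsto h1 h2

theorem fam_adm (h : Irr U T) : Adm (P j) (Q j) (Pal U (X j)) (T (X j)) := by
  obtain ⟨τ, h1⟩ := F.some_at
  exact adm h (h1 j)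

/-- the pair of a family -/
theorem fam_pk (h : Irr U T) : Pk (P j) (Q j) (Pal U (X j)) (T (X j))
    (pick (P j) (Q j) (Pal U (X j)) (T (X j))).1 (pick (P j) (Q j) (Pal U (X j)) (T (X j))).2 :=
  pk_pick (fam_adm F h)

end fam

/-! ### all ticks, sets -/

section wp
variable {J : Type*} {K : ℕ} {a : ℕ → ℝ} {X : J → ℂ} {W : J → ℕ → ℕ → ℕ → Set (Fin 6)}
variable (D : Wp U T K a X W) {j : J} {t sd : ℕ}
include D

/-- **mixed letters** -/
theorem wp_mate (h : Irr U T) (hp : p ∈ W j t sd 0 ∪ W j t sd 1) (hpN : p ∈ Pal U (X j))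
    (hq : q ∈ W j t sd 1) : q ∈ Pal U (X j) :=
  fam_mate (D.fam sd) (j := (j, t)) h hp hpN hq

/-- **far rule** -/
theorem wp_mirror (h : Irr U T) (hr : c ∈ W j t sd 0 ∪ W j t sd 1) (hrN : c ∈ Pal U (X j))
    (hp : p ∈ W j t sd 0 ∪ W j t sd 1) (hpN : p ∉ Pal U (X j)) : p ∈ Pal U (X j + 2 * dir (a t)) := by
  have h1 := fam_mirror (D.fam sd) (j := (j, t)) h (sdf_side sd) hr hrN hp hpN
  have e : 2 * pt (X j) (a t) - X j = X j + 2 * dir (a t) := by
    unfold pt dir; ring
  simp only at h1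
  rwa [e] at h1

theorem wp_adm (h : Irr U T) : Adm (W j t sd 0) (W j t sd 1) (Pal U (X j)) (T (X j)) :=
  fam_adm (D.fam sd) (j := (j, t)) h

end wp

end Vale.Agent.P032.H515
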