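import Vale.Agent.P032.H892.IndW
import Vale.Agent.P032.H61.GenW
import Vale.Agent.P032.H515.Letters

/-!
# P032: words of all points from states of the wild machine

* `exists_wp_states` : a right state at `b` and a left state at `b2` (of any finite systems of nodes) extend to palette
  words (`Wp`) of any finite system of points, any number of classes of ticks.
* `exists_wp_all` : the form of `H61.exists_wd_all` (two classes, four states).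
* `sg` : the one colour state of a set state; `pk_RSt`, `pk_LSt`; `sg_rst`, `sg_lst` : one sided one colour states.
-/

open Set Filter Topology Metric

noncomputable section

namespace Vale.Agent.P032.H515

open Vale.Agent.P032.Six Vale.Agent.P032.Words Vale.Agent.P032.S5.H767 Vale.Agent.P032.H892
  Vale.Agent.P032.H913 Vale.Agent.P032.H357 Vale.Agent.P032.H61 Vale.Agent.P032.H556

variable {U : Fin 6 → Set ℂ} {T : ℂ → Set (Fin 6)}

section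
variable {J M M2 : Type*} {K : ℕ} {a : ℕ → ℝ} {Y : J → ℂ} {X : M → ℂ} {off : M → ℝ} {X2 : M2 → ℂ} {off2 : M2 → ℝ}
  {b b2 : ℝ} {s : M → Set (Fin 6) × Set (Fin 6)} {s2 : M2 → Set (Fin 6) × Set (Fin 6)}

/-- nodes and all ticks -/
def eX (Y : J → ℂ) (X : M → ℂ) (K : ℕ) : M ⊕ (J × Fin (6 * K)) → ℂ := Sum.elim X fun i => Y i.1

def eO (off : M → ℝ) (a : ℕ → ℝ) (b : ℝ) (J : Type*) (K : ℕ) : M ⊕ (J × Fin (6 * K)) → ℝ :=
  Sum.elim off fun i => a i.2 - b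

theorem tick_mul (A : Tick K a) (t : ℕ) : a t = a (t % (6 * K)) + 6 * (((t / (6 * K) : ℕ) : ℤ) : ℝ) := by
  have h1 := A.per_mul (t % (6 * K)) (6 * (t / (6 * K)))
  rw [show t % (6 * K) + 6 * (t / (6 * K)) * K = t % (6 * K) + 6 * K * (t / (6 * K)) by ring, Nat.mod_add_div] at h1
  rw [h1, Int.cast_natCast, Nat.cast_mul]
  norm_num

/-- from an extended state to all ticks -/
theorem ext_tick (A : Tick K a) (hK : 0 < 6 * K) {σ : M ⊕ (J × Fin (6 * K)) → Set (Fin 6) × Set (Fin 6)} {τ : ℝ}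
    (hI : ∀ i, IP U T (eX Y X K i) (b + eO off a b J K i + τ) (σ i).1 (σ i).2) (j : J) (t : ℕ) :
    IP U T (Y j) (a t + τ) (σ (Sum.inr (j, ⟨t % (6 * K), Nat.mod_lt _ hK⟩))).1
      (σ (Sum.inr (j, ⟨t % (6 * K), Nat.mod_lt _ hK⟩))).2 := by
  have h1 := (hI (Sum.inr (j, ⟨t % (6 * K), Nat.mod_lt _ hK⟩))).per ((t / (6 * K) : ℕ) : ℤ)
  have e : b + eO off a b J K (Sum.inr (j, ⟨t % (6 * K), Nat.mod_lt _ hK⟩)) + τ +
      6 * (((t / (6 * K) : ℕ) : ℤ) : ℝ) = a t + τ := by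
    rw [tick_mul A t]
    show b + (a (t % (6 * K)) - b) + τ + _ = _
    ring
  rw [e] at h1
  exact h1

/-- the old nodes -/
theorem ext_old (A : Tick K a) (hK : 0 < 6 * K) {σ : M ⊕ (J × Fin (6 * K)) → Set (Fin 6) × Set (Fin 6)} {τ : ℝ}
    (hI : ∀ i, IP U T (eX Y X K i) (b + eO off a b J K i + τ) (σ i).1 (σ i).2) (hs : ∀ i, σ (Sum.inl i) = s i)
    {i : M} {j : J} {t : ℕ} (hY : Y j = X i) {n : ℤ} (hn : a t = b + off i + 6 * n) :
    σ (Sum.inr (j, ⟨t % (6 * K), Nat.mod_lt _ hK⟩)) = s i := by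
  have h1 := ext_tick A hK hI j t
  have h2 := (hI (Sum.inl i)).per n
  rw [hs i] at h2
  have e : b + eO off a b J K (Sum.inl i) + τ + 6 * (n : ℝ) = a t + τ := by
    rw [hn]
    show b + off i + τ + _ = _
    ring
  have e2 : eX Y X K (Sum.inl i) = Y j := hY.symm
  rw [e, e2] at h2
  obtain ⟨k1, k2⟩ := ip_unique h1 h2
  exact Prod.ext k1 k2

/-- **Words of all points from a right state and a left state.** -/
theorem exists_wp_states (h : Irr U T) [Finite J] [Finite M] [Finite M2] (A : Tick K a) (Y : J → ℂ)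
    (hR : s ∈ RSt DO (IPs U T X off) b) (hL : s2 ∈ LSt DO (IPs U T X2 off2) b2) :
    ∃ W, Wp U T K a Y W ∧
      (∀ i j t, Y j = X i → (∃ n : ℤ, a t = b + off i + 6 * n) → W j t 1 0 = (s i).1 ∧ W j t 1 1 = (s i).2) ∧
      ∀ i j t, Y j = X2 i → (∃ n : ℤ, a t = b2 + off2 i + 6 * n) → W j t 0 0 = (s2 i).1 ∧ W j t 0 1 = (s2 i).2 := by
  have hK : 0 < 6 * K := by have := A.pos; omega
  obtain ⟨σ, hσ, hσs⟩ := ext_RW h (e := (Sum.inl : M → M ⊕ (J × Fin (6 * K)))) (X' := eX Y X K)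
    (off' := eO off a b J K) (fun i => ⟨rfl, 0, by show off i = _; simp⟩) hR
  obtain ⟨ρ, hρ, hρs⟩ := ext_LW h (e := (Sum.inl : M2 → M2 ⊕ (J × Fin (6 * K)))) (X' := eX Y X2 K)
    (off' := eO off2 a b2 J K) (fun i => ⟨rfl, 0, by show off2 i = _; simp⟩) hL
  have FR := rst_famP hσ
  have FL := lst_famP hρ
  refine ⟨fun j t sd io => if sd = 1 then
      (if io = 0 then (σ (Sum.inr (j, ⟨t % (6 * K), Nat.mod_lt _ hK⟩))).1
        else (σ (Sum.inr (j, ⟨t % (6 * K), Nat.mod_lt _ hK⟩))).2)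
      else (if io = 0 then (ρ (Sum.inr (j, ⟨t % (6 * K), Nat.mod_lt _ hK⟩))).1
        else (ρ (Sum.inr (j, ⟨t % (6 * K), Nat.mod_lt _ hK⟩))).2), ⟨fun sd => ?_, fun j t sd io => ?_⟩, ?_, ?_⟩
  · by_cases hs : sd = 1
    · subst hs
      rw [sdf_one]
      refine FR.mono fun τ hτ i => ?_
      simpa using ext_tick A hK hτ i.1 i.2
    · rw [sdf_ne hs]
      refine FL.mono fun τ hτ i => ?_
      simpa [hs] using ext_tick A hK hτ i.1 i.2
  · have e : t % (6 * K) % (6 * K) = t % (6 * K) := Nat.mod_mod _ _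
    simp only [e]
  · rintro i j t hY ⟨n, hn⟩
    obtain ⟨τ, hτ⟩ := FR.some_at
    have h1 := ext_old A hK hτ hσs hY hn
    simp [h1]
  · rintro i j t hY ⟨n, hn⟩
    obtain ⟨τ, hτ⟩ := FL.some_at
    have h1 := ext_old A hK hτ hρs hY hn
    simp [h1]

end

/-! ### one colour states -/

section one
variable {M : Type*} {X : M → ℂ} {off : M → ℝ} {u v : ℝ} {s : M → Set (Fin 6) × Set (Fin 6)}

/-- the one colour state of a set state -/
def sg (U : Fin 6 → Set ℂ) (T : ℂ → Set (Fin 6)) (X : M → ℂ) (s : M → Set (Fin 6) × Set (Fin 6)) (i : M) :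
    Fin 6 × Fin 6 := pick (s i).1 (s i).2 (Pal U (X i)) (T (X i))

theorem pk_ips (h : Irr U T) (hs : IPs U T X off v s) (i : M) :
    Pk (s i).1 (s i).2 (Pal U (X i)) (T (X i)) (sg U T X s i).1 (sg U T X s i).2 :=
  pk_pick (adm h (hs i))

theorem pk_rst (h : Irr U T) (hs : s ∈ RSt DO (IPs U T X off) u) (i : M) :
    Pk (s i).1 (s i).2 (Pal U (X i)) (T (X i)) (sg U T X s i).1 (sg U T X s i).2 := by
  have hs : ∃ᶠ v in 𝓝[>] u ⊓ DO, IPs U T X off v s := hs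
  obtain ⟨v, hv⟩ := hs.exists
  exact pk_ips h hv i

theorem pk_lst (h : Irr U T) (hs : s ∈ LSt DO (IPs U T X off) u) (i : M) :
    Pk (s i).1 (s i).2 (Pal U (X i)) (T (X i)) (sg U T X s i).1 (sg U T X s i).2 := by
  have hs : ∃ᶠ v in 𝓝[<] u ⊓ DO, IPs U T X off v s := hs
  obtain ⟨v, hv⟩ := hs.exists
  exact pk_ips h hv i

end one

/-! ### two classes, four states -/

section four
variable {C J : Type*} {Zc : C → ℂ} {Y : J → ℂ} {e : J → Option C} {u1 u : ℝ}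

/-- **extension of a right state of the centres to all points** -/
theorem ext_pts_R (h : Irr U T) [Finite C] [Finite J] (he : ∀ j c, e j = some c → Y j = Zc c)
    {s : C × Fin 6 → Set (Fin 6) × Set (Fin 6)} (hs : s ∈ RSt DO (IPs U T (nX Zc) nO) u) :
    ∃ s' ∈ RSt DO (IPs U T (nX Y) nO) u, ∀ j c, e j = some c → ∀ m, s' (j, m) = s (c, m) := by
  obtain ⟨σ, hσ, hσs⟩ := ext_RW h (e := (Sum.inl : C × Fin 6 → (C × Fin 6) ⊕ (J × Fin 6)))
    (X' := Sum.elim (nX Zc) (nX Y)) (off' := Sum.elim nO nO) (fun i => ⟨rfl, 0, by simp⟩) hs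
  refine ⟨fun i => σ (Sum.inr i), sub_RW (X' := Sum.elim (nX Zc) (nX Y)) (off' := Sum.elim nO nO)
    (e := Sum.inr) (fun i => ⟨rfl, 0, by simp⟩) hσ, fun j c hj m => ?_⟩
  have hσ : ∃ᶠ v in 𝓝[>] u ⊓ DO, IPs U T (Sum.elim (nX Zc) (nX Y)) (Sum.elim nO nO) v σ := hσ
  obtain ⟨v, hv⟩ := hσ.exists
  have h1 : IP U T (Y j) (v + nO (j, m)) _ _ := hv (Sum.inr (j, m))
  have h2 : IP U T (Zc c) (v + nO (c, m)) _ _ := hv (Sum.inl (c, m))
  rw [he j c hj] at h1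
  obtain ⟨k1, k2⟩ := ip_unique h1 h2
  rw [← hσs (c, m)]
  exact Prod.ext k1 k2

/-- **extension of a left state of the centres to all points** -/
theorem ext_pts_L (h : Irr U T) [Finite C] [Finite J] (he : ∀ j c, e j = some c → Y j = Zc c)
    {s : C × Fin 6 → Set (Fin 6) × Set (Fin 6)} (hs : s ∈ LSt DO (IPs U T (nX Zc) nO) u) :
    ∃ s' ∈ LSt DO (IPs U T (nX Y) nO) u, ∀ j c, e j = some c → ∀ m, s' (j, m) = s (c, m) := by
  obtain ⟨σ, hσ, hσs⟩ := ext_LW h (e := (Sum.inl : C × Fin 6 → (C × Fin 6) ⊕ (J × Fin 6)))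
    (X' := Sum.elim (nX Zc) (nX Y)) (off' := Sum.elim nO nO) (fun i => ⟨rfl, 0, by simp⟩) hs
  refine ⟨fun i => σ (Sum.inr i), sub_LW (X' := Sum.elim (nX Zc) (nX Y)) (off' := Sum.elim nO nO)
    (e := Sum.inr) (fun i => ⟨rfl, 0, by simp⟩) hσ, fun j c hj m => ?_⟩
  have hσ : ∃ᶠ v in 𝓝[<] u ⊓ DO, IPs U T (Sum.elim (nX Zc) (nX Y)) (Sum.elim nO nO) v σ := hσ
  obtain ⟨v, hv⟩ := hσ.exists
  have h1 : IP U T (Y j) (v + nO (j, m)) _ _ := hv (Sum.inr (j, m))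
  have h2 : IP U T (Zc c) (v + nO (c, m)) _ _ := hv (Sum.inl (c, m))
  rw [he j c hj] at h1
  obtain ⟨k1, k2⟩ := ip_unique h1 h2
  rw [← hσs (c, m)]
  exact Prod.ext k1 k2

/-- the letters of a tick of the even class -/
theorem even_R (c : C) (m : ℕ) : ∃ n : ℤ, t2 u1 u (2 * m) = u1 + nO (c, f6 m) + 6 * n := by
  refine ⟨((m / 6 : ℕ) : ℤ), ?_⟩
  have h2 := Nat.mod_add_div m 6
  have h3 : ((m % 6 : ℕ) : ℝ) + 6 * ((m / 6 : ℕ) : ℝ) = m := by exact_mod_cast h2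
  rw [t2_even, Int.cast_natCast]
  show u1 + (m : ℝ) = u1 + ((m % 6 : ℕ) : ℝ) + 6 * ((m / 6 : ℕ) : ℝ)
  linarith

theorem even_L (c : C) (m : ℕ) : ∃ n : ℤ, t2 u1 u (2 * m) = u1 + 1 + nO (c, f6 (m + 5)) + 6 * n := by
  refine ⟨((m + 5) / 6 : ℕ) - 1, ?_⟩
  have h2 := Nat.mod_add_div (m + 5) 6
  have h3 : (((m + 5) % 6 : ℕ) : ℝ) + 6 * (((m + 5) / 6 : ℕ) : ℝ) = m + 5 := by exact_mod_cast h2
  rw [t2_even, Int.cast_sub, Int.cast_natCast]
  show u1 + (m : ℝ) = u1 + 1 + (((m + 5) % 6 : ℕ) : ℝ) + 6 * ((((m + 5) / 6 : ℕ) : ℝ) - ((1 : ℤ) : ℝ))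
  push_cast
  linarith

theorem odd_U (c : C) (m : ℕ) : ∃ n : ℤ, t2 u1 u (2 * m + 1) = u + nO (c, f6 m) + 6 * n := by
  refine ⟨((m / 6 : ℕ) : ℤ), ?_⟩
  have h2 := Nat.mod_add_div m 6
  have h3 : ((m % 6 : ℕ) : ℝ) + 6 * ((m / 6 : ℕ) : ℝ) = m := by exact_mod_cast h2
  rw [t2_odd, Int.cast_natCast]
  show u + (m : ℝ) = u + ((m % 6 : ℕ) : ℝ) + 6 * ((m / 6 : ℕ) : ℝ)
  linarith

/-- **Palette words of all points from four states.**  Class 0 has the words `W 0`, class 1 the words `W 1`. -/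
theorem exists_wp_all (h : Irr U T) [Finite C] [Finite J] (he : ∀ j c, e j = some c → Y j = Zc c)
    (hu : u ∈ Ioo u1 (u1 + 1)) {s0 s1 L R : C × Fin 6 → Set (Fin 6) × Set (Fin 6)}
    (h0 : s0 ∈ RSt DO (IPs U T (nX Zc) nO) u1) (h1 : s1 ∈ LSt DO (IPs U T (nX Zc) nO) (u1 + 1))
    (hL : L ∈ LSt DO (IPs U T (nX Zc) nO) u) (hR : R ∈ RSt DO (IPs U T (nX Zc) nO) u) :
    ∃ W : ℕ → J → ℕ → ℕ → ℕ → Set (Fin 6), (∀ r, Wp U T 2 (t2 u1 u) Y (W r)) ∧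
      ∀ j c, e j = some c → ∀ m : ℕ,
        (W 0 j (2 * m) 1 0 = (s0 (c, f6 m)).1 ∧ W 0 j (2 * m) 1 1 = (s0 (c, f6 m)).2) ∧
        (W 0 j (2 * m) 0 0 = (s1 (c, f6 (m + 5))).1 ∧ W 0 j (2 * m) 0 1 = (s1 (c, f6 (m + 5))).2) ∧
        (W 1 j (2 * m + 1) 1 0 = (R (c, f6 m)).1 ∧ W 1 j (2 * m + 1) 1 1 = (R (c, f6 m)).2) ∧
        (W 1 j (2 * m + 1) 0 0 = (L (c, f6 m)).1 ∧ W 1 j (2 * m + 1) 0 1 = (L (c, f6 m)).2) := by
  obtain ⟨W0, D0, a0, b0⟩ := exists_wp_states h (tick_t2 hu) Y h0 h1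
  obtain ⟨W1, D1, a1, b1⟩ := exists_wp_states h (tick_t2 hu) Y hR hL
  refine ⟨fun r => if r = 0 then W0 else W1, fun r => ?_, fun j c hj m => ?_⟩
  · by_cases hr : r = 0
    · simp only [hr, if_true]; exact D0
    · simp only [if_neg hr]; exact D1
  · have hY : Y j = nX Zc (c, f6 m) := he j c hj
    have hY' : Y j = nX Zc (c, f6 (m + 5)) := he j c hj
    simp only [if_true, if_neg (show ¬ (1 : ℕ) = 0 by norm_num)]
    exact ⟨a0 (c, f6 m) j _ hY (even_R c m), b0 (c, f6 (m + 5)) j _ hY' (even_L c m),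
      a1 (c, f6 m) j _ hY (odd_U c m), b1 (c, f6 m) j _ hY (odd_U c m)⟩

/-- **One colour letters of all points from four states.** -/
theorem exists_sw_all (h : Irr U T) [Finite C] [Finite J] (he : ∀ j c, e j = some c → Y j = Zc c)
    (hu : u ∈ Ioo u1 (u1 + 1)) {s0 s1 L R : C × Fin 6 → Set (Fin 6) × Set (Fin 6)}
    (h0 : s0 ∈ RSt DO (IPs U T (nX Zc) nO) u1) (h1 : s1 ∈ LSt DO (IPs U T (nX Zc) nO) (u1 + 1))
    (hL : L ∈ LSt DO (IPs U T (nX Zc) nO) u) (hR : R ∈ RSt DO (IPs U T (nX Zc) nO) u) :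
    ∃ (W : ℕ → J → ℕ → ℕ → ℕ → Set (Fin 6)) (w : ℕ → J → ℕ → ℕ → ℕ → Fin 6),
      (∀ r, Sw U T 2 (t2 u1 u) Y (W r) (w r)) ∧
      ∀ j c, e j = some c → ∀ m : ℕ,
        ((W 0 j (2 * m) 1 0 = (s0 (c, f6 m)).1 ∧ W 0 j (2 * m) 1 1 = (s0 (c, f6 m)).2) ∧
        (W 0 j (2 * m) 0 0 = (s1 (c, f6 (m + 5))).1 ∧ W 0 j (2 * m) 0 1 = (s1 (c, f6 (m + 5))).2) ∧
        (W 1 j (2 * m + 1) 1 0 = (R (c, f6 m)).1 ∧ W 1 j (2 * m + 1) 1 1 = (R (c, f6 m)).2) ∧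
        (W 1 j (2 * m + 1) 0 0 = (L (c, f6 m)).1 ∧ W 1 j (2 * m + 1) 0 1 = (L (c, f6 m)).2)) ∧
        (w 0 j (2 * m) 1 0 = (sg U T (nX Zc) s0 (c, f6 m)).1 ∧
          w 0 j (2 * m) 1 1 = (sg U T (nX Zc) s0 (c, f6 m)).2) ∧
        (w 0 j (2 * m) 0 0 = (sg U T (nX Zc) s1 (c, f6 (m + 5))).1 ∧
          w 0 j (2 * m) 0 1 = (sg U T (nX Zc) s1 (c, f6 (m + 5))).2) ∧
        (w 1 j (2 * m + 1) 1 0 = (sg U T (nX Zc) R (c, f6 m)).1 ∧
          w 1 j (2 * m + 1) 1 1 = (sg U T (nX Zc) R (c, f6 m)).2) ∧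
        (w 1 j (2 * m + 1) 0 0 = (sg U T (nX Zc) L (c, f6 m)).1 ∧
          w 1 j (2 * m + 1) 0 1 = (sg U T (nX Zc) L (c, f6 m)).2) := by
  obtain ⟨W, D, k⟩ := exists_wp_all h he hu h0 h1 hL hR
  refine ⟨W, fun r => pw U T Y (W r), fun r => sw_pw (D r) h, fun j c hj m => ⟨k j c hj m, ?_⟩⟩
  obtain ⟨⟨k1, k2⟩, ⟨k3, k4⟩, ⟨k5, k6⟩, k7, k8⟩ := k j c hj m
  have hY : Y j = Zc c := he j c hj
  simp only [pw, sg, nX, k1, k2, k3, k4, k5, k6, k7, k8, hY, if_true, if_neg (show ¬ (1 : ℕ) = 0 by norm_num),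
    and_self]

end four

/-! ### the induction along one path, with the bits of `H892.GermC` -/

section path
variable {M : Type*} {B : Type} {X : M → ℂ} {off : M → ℝ} {D : B → Fin 6 → Set ℝ} {u1 u : ℝ}

theorem lst_neW (h : Irr U T) [Finite M] (X : M → ℂ) (off : M → ℝ) (u : ℝ) :
    (LSt DO (IPs U T X off) u).Nonempty := by
  have := neBot_L u
  exact LSt_nonempty ((ips_DO h X off).filter_mono inf_le_right).frequently

theorem rst_neW (h : Irr U T) [Finite M] (X : M → ℂ) (off : M → ℝ) (u : ℝ) :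
    (RSt DO (IPs U T X off) u).Nonempty := by
  have := neBot_R u
  exact RSt_nonempty ((ips_DO h X off).filter_mono inf_le_right).frequently

/-- letters and bits at the time `u` -/
def IPB (U : Fin 6 → Set ℂ) (T : ℂ → Set (Fin 6)) (X : M → ℂ) (off : M → ℝ) (D : B → Fin 6 → Set ℝ)
    (u1 u : ℝ) (s : (M → Set (Fin 6) × Set (Fin 6)) × GB B × GB B) : Prop :=
  IPs U T X off u s.1 ∧ s.2.1 = cAr D u1 u ∧ s.2.2 = cBr D u1 u

variable [Finite B]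

theorem mem_lst_iffW (hD : ∀ j q, IsClosed (D j q)) (h1 : u1 < u) (h2 : u ≤ u1 + 1)
    {s : (M → Set (Fin 6) × Set (Fin 6)) × GB B × GB B} :
    s ∈ LSt DO (IPB U T X off D u1) u ↔ s.1 ∈ LSt DO (IPs U T X off) u ∧ s.2.1 = cAl D u1 u ∧
      s.2.2 = fun j m q => cBl D u1 u j m q ∨ (u = u1 + 1 ∧ cL D u1 j m q) := by
  have hev := (ev_cbits_left hD h1 h2).filter_mono (inf_le_left (b := DO))
  constructor
  · intro h
    have h3 : ∃ᶠ v in 𝓝[<] u ⊓ DO, IPB U T X off D u1 v s := h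
    obtain ⟨v, h4, h5⟩ := (h3.and_eventually hev).exists
    exact ⟨h3.mono fun v hv => hv.1, by rw [h4.2.1, h5.1], by rw [h4.2.2, h5.2]⟩
  · rintro ⟨h3, h4, h5⟩
    have h3 : ∃ᶠ v in 𝓝[<] u ⊓ DO, IPs U T X off v s.1 := h3
    exact (h3.and_eventually hev).mono fun v hv => ⟨hv.1, by rw [h4, hv.2.1], by rw [h5, hv.2.2]⟩

theorem mem_rst_iffW (hD : ∀ j q, IsClosed (D j q)) (h1 : u1 ≤ u)
    {s : (M → Set (Fin 6) × Set (Fin 6)) × GB B × GB B} :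
    s ∈ RSt DO (IPB U T X off D u1) u ↔ s.1 ∈ RSt DO (IPs U T X off) u ∧
      (s.2.1 = fun j m q => cAr D u1 u j m q ∨ (u = u1 ∧ cR D u1 j m q)) ∧ s.2.2 = cBr D u1 u := by
  have hev := (ev_cbits_right hD h1).filter_mono (inf_le_left (b := DO))
  constructor
  · intro h
    have h3 : ∃ᶠ v in 𝓝[>] u ⊓ DO, IPB U T X off D u1 v s := h
    obtain ⟨v, h4, h5⟩ := (h3.and_eventually hev).exists
    exact ⟨h3.mono fun v hv => hv.1, by rw [h4.2.1, h5.1], by rw [h4.2.2, h5.2]⟩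
  · rintro ⟨h3, h4, h5⟩
    have h3 : ∃ᶠ v in 𝓝[>] u ⊓ DO, IPs U T X off v s.1 := h3
    exact (h3.and_eventually hev).mono fun v hv => ⟨hv.1, by rw [h4, hv.2.1], by rw [h5, hv.2.2]⟩

/-- **The induction along one path, every start and every end.**  `s0` any right state at `u1`, `s1` any left state at
`u1 + 1`.  Wild form of `H61.gen_states_all`. -/
theorem wgen_states_all (h : Irr U T) [Finite M] (hD : ∀ j q, IsClosed (D j q))
    {s0 s1 : M → Set (Fin 6) × Set (Fin 6)} (k0 : s0 ∈ RSt DO (IPs U T X off) u1)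
    (k1 : s1 ∈ LSt DO (IPs U T X off) (u1 + 1)) :
      (∃ u ∈ Ioo u1 (u1 + 1), s0 ∈ LSt DO (IPs U T X off) u ∧ s0 ∈ RSt DO (IPs U T X off) u ∧
        cAl D u1 u = cR D u1 ∧ cBl D u1 u = cS D u1 ∧ cAr D u1 u = cR D u1 ∧ cBr D u1 u = cS D u1) ∧
      (∃ u ∈ Ioo u1 (u1 + 1), s1 ∈ LSt DO (IPs U T X off) u ∧ s1 ∈ RSt DO (IPs U T X off) u ∧
        cAl D u1 u = cS D u1 ∧ cBl D u1 u = cL D u1 ∧ cAr D u1 u = cS D u1 ∧ cBr D u1 u = cL D u1) ∧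
      ∀ V : (M → Set (Fin 6) × Set (Fin 6)) → GB B → GB B → Prop, V s0 (cR D u1) (cS D u1) →
        (∀ u ∈ Ioo u1 (u1 + 1), ∀ L ∈ LSt DO (IPs U T X off) u, ∀ R ∈ RSt DO (IPs U T X off) u,
          V L (cAl D u1 u) (cBl D u1 u) → V R (cAr D u1 u) (cBr D u1 u)) →
        V s1 (cS D u1) (cL D u1) := by
  have hab : u1 < u1 + 1 := by linarith
  have hR : ∀ u ∈ Ioo u1 (u1 + 1), (RSt DO (IPB U T X off D u1) u).Nonempty := by
    intro u hu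
    obtain ⟨σ, hσ⟩ := rst_neW h X off u
    exact ⟨(σ, _, _), (mem_rst_iffW hD hu.1.le).2 ⟨hσ, rfl, rfl⟩⟩
  have m0 : (s0, cR D u1, cS D u1) ∈ RSt DO (IPB U T X off D u1) u1 :=
    (mem_rst_iffW hD le_rfl).2 ⟨k0, ar_u1.symm, rfl⟩
  have m1 : (s1, cS D u1, cL D u1) ∈ LSt DO (IPB U T X off D u1) (u1 + 1) :=
    (mem_lst_iffW hD hab le_rfl).2 ⟨k1, al_u2.symm, bl_u2.symm⟩
  have h0 := start_of_rst m0
  have h1 := end_of_lst m1
  refine ⟨?_, ?_, fun V hV0 hstep => ?_⟩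
  · obtain ⟨u, ⟨hu1, hu2⟩, hu⟩ := (h0.and_eventually (Ioo_mem_nhdsGT hab)).exists
    have m1 := (mem_lst_iffW hD hu.1 hu.2.le).1 hu1
    have m2 := (mem_rst_iffW hD hu.1.le).1 hu2
    rw [bl_eq hu.2] at m1
    rw [ar_eq hu.1] at m2
    exact ⟨u, hu, m1.1, m2.1, m1.2.1.symm, m1.2.2.symm, m2.2.1.symm, m2.2.2.symm⟩
  · obtain ⟨u, ⟨hu1, hu2⟩, hu⟩ := (h1.and_eventually (Ioo_mem_nhdsLT hab)).exists
    have m1 := (mem_lst_iffW hD hu.1 hu.2.le).1 hu1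
    have m2 := (mem_rst_iffW hD hu.1.le).1 hu2
    rw [bl_eq hu.2] at m1
    rw [ar_eq hu.1] at m2
    exact ⟨u, hu, m1.1, m2.1, m1.2.1.symm, m1.2.2.symm, m2.2.1.symm, m2.2.2.symm⟩
  · have := gen_run (E := DO) (P := IPB U T X off D u1) hab hR
      (V := {s | V s.1 s.2.1 s.2.2}) (fun u hu s hs s' hs' hV => by
        have m1 := (mem_lst_iffW hD hu.1 hu.2.le).1 hs
        have m2 := (mem_rst_iffW hD hu.1.le).1 hs'
        rw [bl_eq hu.2] at m1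
        rw [ar_eq hu.1] at m2
        have hV : V s.1 s.2.1 s.2.2 := hV
        rw [m1.2.1, m1.2.2] at hV
        show V s'.1 s'.2.1 s'.2.2
        rw [m2.2.1, m2.2.2]
        exact hstep u hu s.1 m1.1 s'.1 m2.1 hV) (s0 := (s0, cR D u1, cS D u1))
      (h0.mono fun u hu => hu.1) hV0 (s1, cS D u1, cL D u1) (h1.mono fun u hu => hu.2)
    exact this

/-- the same for a property of the one colour states -/
theorem wgen_states_one (h : Irr U T) [Finite M] (hD : ∀ j q, IsClosed (D j q))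
    {s0 s1 : M → Set (Fin 6) × Set (Fin 6)} (k0 : s0 ∈ RSt DO (IPs U T X off) u1)
    (k1 : s1 ∈ LSt DO (IPs U T X off) (u1 + 1)) (V : (M → Fin 6 × Fin 6) → GB B → GB B → Prop)
    (hV : V (sg U T X s0) (cR D u1) (cS D u1))
    (hstep : ∀ u ∈ Ioo u1 (u1 + 1), ∀ L ∈ LSt DO (IPs U T X off) u, ∀ R ∈ RSt DO (IPs U T X off) u,
      V (sg U T X L) (cAl D u1 u) (cBl D u1 u) → V (sg U T X R) (cAr D u1 u) (cBr D u1 u)) :
    V (sg U T X s1) (cS D u1) (cL D u1) :=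
  (wgen_states_all h hD k0 k1).2.2 (fun s => V (sg U T X s)) hV hstep

end path

end Vale.Agent.P032.H515
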