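import Vale.Agent.P032.H556.Wp3

/-!
# P032: one coloured letters against the cells of the centre, frame `Irr U T`

If the inner side of the letter has only the colour `c`, then no points of `U c` accumulate at the centre in the cells
away from the direction (`in_*`); outer side: cells towards the direction (`out_*`).  First order and the tangent rays
on the side of the letter.
-/

open Set Filter Topology Metric

noncomputable section

namespace Vale.Agent.P032.H515

open Vale.Agent.P032.Six Vale.Agent.P032.Words Vale.Agent.P032.S5.H767 Vale.Agent.P032.H892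
  Vale.Agent.P032.H913 Vale.Agent.P032.H357 Vale.Agent.P032.H61 Vale.Agent.P032.H556

variable {U : Fin 6 → Set ℂ} {T : ℂ → Set (Fin 6)} {c : Fin 6}
variable {J : Type*} {K : ℕ} {a : ℕ → ℝ} {X : J → ℂ} {W : J → ℕ → ℕ → ℕ → Set (Fin 6)}

namespace Half

variable (D : Wp U T K a X W) (h : Irr U T) {j : J} {t sd : ℕ}
include D h

theorem far (hs : W j t sd 0 ⊆ {c}) {θ : ℝ} (hθ : θ ∈ DS (U c) (X j))
    (hc : ∀ᶠ τ in sdf sd, 3 / 2 < θ - a t - τ ∧ θ - a t - τ < 9 / 2) : False := by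
  obtain ⟨τ, hτ, h1⟩ := (D.fam sd).exists_at hc
  refine hit_in h hθ (v := a t + τ) (neg_of (by linarith [hτ.1]) (by linarith [hτ.2])) ?_
  have h2 := (h1 (j, t)).eqP
  simp only at h2
  rw [h2]; exact hs

theorem near (hs : W j t sd 1 ⊆ {c}) {θ : ℝ} (hθ : θ ∈ DS (U c) (X j))
    (hc : ∀ᶠ τ in sdf sd, 9 / 2 < θ - a t - τ ∧ θ - a t - τ < 15 / 2) : False := by
  obtain ⟨τ, hτ, h1⟩ := (D.fam sd).exists_at hc
  refine hit_out h hθ (v := a t + τ) (CK.cos_pos_six (by linarith [hτ.1]) (by linarith [hτ.2])) ?_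
  have h2 := (h1 (j, t)).eqQ
  simp only at h2
  rw [h2]; exact hs

/-- inner side, sectors away from the direction -/
theorem in_sector (A : Tick K a) (hs : W j t sd 0 ⊆ {c}) {d : ℕ} (hd : d < 3 * K) :
    ¬ Cl (U c) (X j) a 0 (t + d) := by
  intro hc
  obtain ⟨θ, hθ, h2⟩ := cl_zero.1 hc
  have h3 := CK.ra_le A (show t ≤ t + d by omega)
  have h4 := CK.ra_le A (show t + d + 1 ≤ t + 3 * K by omega)
  rw [CK.ra_half A] at h4
  have h5 : ra a t = a t + 3 / 2 := rfl
  exact far D h hs h2 (ev_mem (sdf_side sd) (by linarith [hθ.1]) (by linarith [hθ.2]))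

/-- inner side, rays away from the direction -/
theorem in_ray (A : Tick K a) (hs : W j t sd 0 ⊆ {c}) {d k : ℕ} (hd1 : 1 ≤ d) (hd : d < 3 * K)
    (hk : k ≠ 0) : ¬ Cl (U c) (X j) a k (t + d) := by
  intro hc
  have h3 := CK.ra_lt A (show t < t + d by omega)
  have h4 := CK.ra_lt A (show t + d < t + 3 * K by omega)
  rw [CK.ra_half A] at h4
  have h5 : ra a t = a t + 3 / 2 := rfl
  exact far D h hs (cl_ray hk hc) (ev_mem (sdf_side sd) (by linarith) (by linarith))

/-- outer side, sectors towards the direction -/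
theorem out_sector (A : Tick K a) (hs : W j t sd 1 ⊆ {c}) {d : ℕ} (hd : 3 * K ≤ d) (hd2 : d < 6 * K) :
    ¬ Cl (U c) (X j) a 0 (t + d) := by
  intro hc
  obtain ⟨θ, hθ, h2⟩ := cl_zero.1 hc
  have h3 := CK.ra_le A (show t + 3 * K ≤ t + d by omega)
  have h4 := CK.ra_le A (show t + d + 1 ≤ t + 6 * K by omega)
  rw [CK.ra_half A] at h3
  rw [CK.ra_full A] at h4
  have h5 : ra a t = a t + 3 / 2 := rfl
  exact near D h hs h2 (ev_mem (sdf_side sd) (by linarith [hθ.1]) (by linarith [hθ.2]))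

/-- outer side, rays towards the direction -/
theorem out_ray (A : Tick K a) (hs : W j t sd 1 ⊆ {c}) {d k : ℕ} (hd1 : 3 * K < d) (hd : d < 6 * K)
    (hk : k ≠ 0) : ¬ Cl (U c) (X j) a k (t + d) := by
  intro hc
  have h3 := CK.ra_lt A (show t + 3 * K < t + d by omega)
  have h4 := CK.ra_lt A (show t + d < t + 6 * K by omega)
  rw [CK.ra_half A] at h3
  rw [CK.ra_full A] at h4
  have h5 : ra a t = a t + 3 / 2 := rfl
  exact near D h hs (cl_ray hk hc) (ev_mem (sdf_side sd) (by linarith) (by linarith))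

/-- after: the ray `t + 3 K`, inner side -/
theorem in_end_R (A : Tick K a) (hs : W j t 1 0 ⊆ {c}) {k : ℕ} (hk : k ≠ 0) :
    ¬ Cl (U c) (X j) a k (t + 3 * K) := by
  intro hc
  have h2 := cl_ray hk hc
  rw [CK.ra_half A] at h2
  have h5 : ra a t = a t + 3 / 2 := rfl
  refine far D h hs h2 ?_
  rw [sdf_one]
  filter_upwards [Ioo_mem_nhdsGT (one_pos : (0 : ℝ) < 1)] with τ hτ
  constructor <;> linarith [hτ.1, hτ.2]

/-- before: the ray `t`, inner side -/
theorem in_end_L (hs : W j t 0 0 ⊆ {c}) {k : ℕ} (hk : k ≠ 0) : ¬ Cl (U c) (X j) a k t := by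
  intro hc
  have h2 := cl_ray hk hc
  have h5 : ra a t = a t + 3 / 2 := rfl
  refine far D h hs h2 ?_
  rw [sdf_ne (by norm_num)]
  filter_upwards [Ioo_mem_nhdsLT (by norm_num : (-1 : ℝ) < 0)] with τ hτ
  constructor <;> linarith [hτ.1, hτ.2]

/-- after: the ray `t`, outer side -/
theorem out_end_R (hs : W j t 1 1 ⊆ {c}) {k : ℕ} (hk : k ≠ 0) : ¬ Cl (U c) (X j) a k t := by
  intro hc
  have h2 := ds_six.2 (cl_ray hk hc)
  have h5 : ra a t = a t + 3 / 2 := rfl
  refine near D h hs h2 ?_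
  rw [sdf_one]
  filter_upwards [Ioo_mem_nhdsGT (one_pos : (0 : ℝ) < 1)] with τ hτ
  constructor <;> linarith [hτ.1, hτ.2]

/-- before: the ray `t + 3 K`, outer side -/
theorem out_end_L (A : Tick K a) (hs : W j t 0 1 ⊆ {c}) {k : ℕ} (hk : k ≠ 0) :
    ¬ Cl (U c) (X j) a k (t + 3 * K) := by
  intro hc
  have h2 := cl_ray hk hc
  rw [CK.ra_half A] at h2
  have h5 : ra a t = a t + 3 / 2 := rfl
  refine near D h hs h2 ?_
  rw [sdf_ne (by norm_num)]
  filter_upwards [Ioo_mem_nhdsLT (by norm_num : (-1 : ℝ) < 0)] with τ hτ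
  constructor <;> linarith [hτ.1, hτ.2]

end Half

end Vale.Agent.P032.H515
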