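import Vale.Agent.P032.H515.MB

/-!
# P032: crossings near a unit triangle, with sides (no colouring)

* `dsq` : exact distance of `pt p (b + δ)` and `pt (pt p b) g`,
* `gt_one`, `lt_one` : the sign,
* `crossP`, `crossM` : the circle of a point `w` near `v = pt (pt p b) g` meets the circle of `p`
  near `pt p b` on the side given by the sign of `dist (pt p b) w - 1` and of `b - g`,
* `two_adj`, `shape` : the regions at a point.
-/

open Set Filter Topology Metric

noncomputable section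

namespace Vale.Agent.P032.H515

open Vale.Agent.P032.Six Vale.Agent.P032.S5.H767

theorem dsq (p : ℂ) (b g δ : ℝ) :
    dist (pt p (b + δ)) (pt (pt p b) g) ^ 2 = 1 + 8 * Real.sin (δ * (Real.pi / 3) / 2) *
      Real.sin ((b - g + δ) * (Real.pi / 3) / 2) * Real.cos ((b - g) * (Real.pi / 3) / 2) := by
  rw [sq_dist]
  unfold pt
  simp only [Complex.add_re, Complex.add_im, cis_re, cis_im]
  set B := b * (Real.pi / 3) with hB
  set x := δ * (Real.pi / 3) / 2 with hx
  set y := (b - g) * (Real.pi / 3) / 2 with hy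
  have e1 : (b + δ) * (Real.pi / 3) = B + 2 * x := by rw [hB, hx]; ring
  have e2 : g * (Real.pi / 3) = B - 2 * y := by rw [hB, hy]; ring
  have e3 : (b - g + δ) * (Real.pi / 3) / 2 = x + y := by rw [hx, hy]; ring
  rw [e1, e2, e3, Real.cos_add, Real.sin_add B, Real.cos_sub, Real.sin_sub, Real.sin_add x,
    Real.cos_two_mul, Real.sin_two_mul, Real.cos_two_mul, Real.sin_two_mul]
  have E0 := Real.sin_sq_add_cos_sq B
  have E1 := Real.sin_sq_add_cos_sq x
  have E2 := Real.sin_sq_add_cos_sq y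
  linear_combination ((2 * Real.cos x ^ 2 - 1 - 1 - (2 * Real.cos y ^ 2 - 1)) ^ 2 +
    (2 * Real.sin x * Real.cos x + 2 * Real.sin y * Real.cos y) ^ 2) * E0 +
    (4 * Real.cos x ^ 2 - 8 * Real.cos y ^ 2) * E1 + 4 * Real.cos y ^ 2 * E2

theorem sin_pos_of {t : ℝ} (h0 : 0 < t) (h6 : t < 6) : 0 < Real.sin (t * (Real.pi / 3) / 2) := by
  have hpi := Real.pi_pos
  exact Real.sin_pos_of_pos_of_lt_pi (by positivity) (by nlinarith)

theorem sin_neg_of {t : ℝ} (h0 : t < 0) (h6 : -6 < t) : Real.sin (t * (Real.pi / 3) / 2) < 0 := by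
  have h1 := sin_pos_of (t := -t) (by linarith) (by linarith)
  have h2 : -t * (Real.pi / 3) / 2 = -(t * (Real.pi / 3) / 2) := by ring
  rw [h2, Real.sin_neg] at h1
  linarith

theorem cos_pos_of {t : ℝ} (h : |t| < 3) : 0 < Real.cos (t * (Real.pi / 3) / 2) := by
  have hpi := Real.pi_pos
  rw [abs_lt] at h
  exact Real.cos_pos_of_mem_Ioo ⟨by nlinarith [h.1], by nlinarith [h.2]⟩

theorem gt_one (p : ℂ) {b g δ : ℝ} (hφ : |b - g| < 3) (hδ : |δ| < 3) (hs : 0 < δ * (b - g + δ)) :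
    1 < dist (pt p (b + δ)) (pt (pt p b) g) := by
  have h1 := dsq p b g δ
  have hc := cos_pos_of hφ
  have hd := dist_nonneg (x := pt p (b + δ)) (y := pt (pt p b) g)
  rw [abs_lt] at hφ hδ
  have h2 : 0 < Real.sin (δ * (Real.pi / 3) / 2) *
      Real.sin ((b - g + δ) * (Real.pi / 3) / 2) := by
    rcases lt_trichotomy δ 0 with h | h | h
    · have h3 : b - g + δ < 0 := by by_contra hcon; push Not at hcon; nlinarith
      exact mul_pos_of_neg_of_neg (sin_neg_of h (by linarith [hδ.1]))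
        (sin_neg_of h3 (by linarith [hδ.1, hφ.1]))
    · rw [h] at hs; simp at hs
    · have h3 : 0 < b - g + δ := by by_contra hcon; push Not at hcon; nlinarith
      exact mul_pos (sin_pos_of h (by linarith [hδ.2])) (sin_pos_of h3 (by linarith [hδ.2, hφ.2]))
  have h4 := mul_pos h2 hc
  have h5 : 1 < dist (pt p (b + δ)) (pt (pt p b) g) ^ 2 := by rw [h1]; linarith
  by_contra hcon
  push Not at hcon
  have h6 : dist (pt p (b + δ)) (pt (pt p b) g) ^ 2 ≤ 1 := pow_le_one₀ hd hcon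
  linarith

theorem lt_one (p : ℂ) {b g δ : ℝ} (hφ : |b - g| < 3) (hδ : |δ| < 3) (hs : δ * (b - g + δ) < 0) :
    dist (pt p (b + δ)) (pt (pt p b) g) < 1 := by
  have h1 := dsq p b g δ
  have hc := cos_pos_of hφ
  have hd := dist_nonneg (x := pt p (b + δ)) (y := pt (pt p b) g)
  rw [abs_lt] at hφ hδ
  have h2 : Real.sin (δ * (Real.pi / 3) / 2) *
      Real.sin ((b - g + δ) * (Real.pi / 3) / 2) < 0 := by
    rcases lt_trichotomy δ 0 with h | h | h
    · have h3 : 0 < b - g + δ := by by_contra hcon; push Not at hcon; nlinarith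
      exact mul_neg_of_neg_of_pos (sin_neg_of h (by linarith [hδ.1]))
        (sin_pos_of h3 (by linarith [hφ.2]))
    · rw [h] at hs; simp at hs
    · have h3 : b - g + δ < 0 := by by_contra hcon; push Not at hcon; nlinarith
      exact mul_neg_of_pos_of_neg (sin_pos_of h (by linarith [hδ.2]))
        (sin_neg_of h3 (by linarith [hφ.1]))
  have h4 := mul_neg_of_neg_of_pos h2 hc
  have h5 : dist (pt p (b + δ)) (pt (pt p b) g) ^ 2 < 1 := by rw [h1]; linarith
  by_contra hcon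
  push Not at hcon
  have h6 : 1 ≤ dist (pt p (b + δ)) (pt (pt p b) g) ^ 2 := one_le_pow₀ hcon
  linarith

theorem cont' (p w : ℂ) (b : ℝ) : Continuous fun δ : ℝ => dist (pt p (b + δ)) w :=
  ((continuous_pt p).comp (continuous_const.add continuous_id)).dist continuous_const

theorem ev_lt {x v : ℂ} (h : dist x v < 1) : ∀ᶠ w in 𝓝 v, dist x w < 1 :=
  (continuous_const.dist continuous_id).continuousAt.eventually_lt continuousAt_const h

theorem ev_gt {x v : ℂ} (h : 1 < dist x v) : ∀ᶠ w in 𝓝 v, 1 < dist x w :=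
  continuousAt_const.eventually_lt (continuous_const.dist continuous_id).continuousAt h

/-- crossing, `b - g` positive -/
theorem crossP (p : ℂ) {b g η : ℝ} (h0 : 0 < b - g) (h3 : b - g < 3) (hη : 0 < η) :
    ∀ᶠ w in 𝓝 (pt (pt p b) g),
      (1 < dist (pt p b) w → ∃ δ, -η < δ ∧ δ < 0 ∧ dist (pt p (b + δ)) w = 1) ∧
      (dist (pt p b) w < 1 → ∃ δ, 0 < δ ∧ δ < η ∧ dist (pt p (b + δ)) w = 1) := by
  obtain ⟨d, hd0, hd⟩ := exists_between (lt_min hη (lt_min h0 one_pos))
  obtain ⟨hd1, hd2⟩ := lt_min_iff.1 hd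
  obtain ⟨hd2, hd3⟩ := lt_min_iff.1 hd2
  have hφ : |b - g| < 3 := by rw [abs_lt]; constructor <;> linarith
  have hdd : |(-d)| < 3 := by rw [abs_lt]; constructor <;> linarith
  have hdd' : |d| < 3 := by rw [abs_lt]; constructor <;> linarith
  have H1 := lt_one p (b := b) (g := g) (δ := -d) hφ hdd (by nlinarith)
  have H2 := gt_one p (b := b) (g := g) (δ := d) hφ hdd' (by nlinarith)
  filter_upwards [ev_lt H1, ev_gt H2] with w h1 h2
  constructor
  · intro h
    obtain ⟨δ, a1, a2, a3⟩ := ivt (cont' p w b) (a := -d) (b := 0) (by linarith)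
      (Or.inl ⟨h1, by simpa using h⟩)
    exact ⟨δ, by linarith, a2, a3⟩
  · intro h
    obtain ⟨δ, a1, a2, a3⟩ := ivt (cont' p w b) (a := 0) (b := d) hd0
      (Or.inl ⟨by simpa using h, h2⟩)
    exact ⟨δ, a1, by linarith, a3⟩

/-- crossing, `b - g` negative -/
theorem crossM (p : ℂ) {b g η : ℝ} (h0 : b - g < 0) (h3 : -3 < b - g) (hη : 0 < η) :
    ∀ᶠ w in 𝓝 (pt (pt p b) g),
      (1 < dist (pt p b) w → ∃ δ, 0 < δ ∧ δ < η ∧ dist (pt p (b + δ)) w = 1) ∧
      (dist (pt p b) w < 1 → ∃ δ, -η < δ ∧ δ < 0 ∧ dist (pt p (b + δ)) w = 1) := by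
  obtain ⟨d, hd0, hd⟩ := exists_between (lt_min hη (lt_min (by linarith : 0 < -(b - g)) one_pos))
  obtain ⟨hd1, hd2⟩ := lt_min_iff.1 hd
  obtain ⟨hd2, hd3⟩ := lt_min_iff.1 hd2
  have hφ : |b - g| < 3 := by rw [abs_lt]; constructor <;> linarith
  have hdd : |(-d)| < 3 := by rw [abs_lt]; constructor <;> linarith
  have hdd' : |d| < 3 := by rw [abs_lt]; constructor <;> linarith
  have H1 := gt_one p (b := b) (g := g) (δ := -d) hφ hdd (by nlinarith)
  have H2 := lt_one p (b := b) (g := g) (δ := d) hφ hdd' (by nlinarith)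
  filter_upwards [ev_gt H1, ev_lt H2] with w h1 h2
  constructor
  · intro h
    obtain ⟨δ, a1, a2, a3⟩ := ivt (cont' p w b) (a := 0) (b := d) hd0
      (Or.inr ⟨by simpa using h, h2⟩)
    exact ⟨δ, a1, by linarith, a3⟩
  · intro h
    obtain ⟨δ, a1, a2, a3⟩ := ivt (cont' p w b) (a := -d) (b := 0) (by linarith)
      (Or.inr ⟨h1, by simpa using h⟩)
    exact ⟨δ, by linarith, a2, a3⟩

/-! ### The regions at a point -/

theorem not_both (z w : ℂ) (a : ℝ) (h1 : dist (pt z a) w < 1) :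
    ¬ dist (pt z (a + 3)) w < 1 := by
  intro h2
  have h3 : dist (pt z a) (pt z (a + 3)) = 2 := by
    rw [pt_three, dist_eq_norm]
    have e : pt z a - (2 * z - pt z a) = 2 * (pt z a - z) := by ring
    rw [e, norm_mul, ← dist_eq_norm, dist_pt]
    simp
  have := dist_triangle (pt z a) w (pt z (a + 3))
  rw [dist_comm w] at this
  linarith

/-- two neighbouring discs contain a given point near the centre -/
theorem adj_core {x y t : ℝ} (ht : 0 < t) (ht' : t < 1 / 4) (h : x ^ 2 - x * y + y ^ 2 = 3 / 2 * t)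
    (hx : 0 ≤ x) (hxy : x ≤ y) : t < y ∧ (t < x ∨ t < y - x) := by
  constructor
  · by_contra hcon
    push Not at hcon
    have h1 : y ^ 2 ≤ t ^ 2 := by nlinarith
    have h2 : 0 ≤ x * (y - x) := mul_nonneg hx (by linarith)
    nlinarith
  · by_contra hcon
    push Not at hcon
    obtain ⟨h1, h2⟩ := hcon
    have h3 : y ≤ 2 * t := by linarith
    have h4 : y * (y - x) ≤ 2 * t * t := by
      apply mul_le_mul h3 h2 (by linarith) (by linarith)
    have h5 : x ^ 2 ≤ t * t := by nlinarith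
    nlinarith

theorem two_adj {x y t : ℝ} (ht : 0 < t) (ht' : t < 1 / 4)
    (h : x ^ 2 - x * y + y ^ 2 = 3 / 2 * t) :
    (t < x ∧ t < y) ∨ (t < y ∧ t < y - x) ∨ (t < y - x ∧ t < -x) ∨ (t < -x ∧ t < -y) ∨
    (t < -y ∧ t < x - y) ∨ (t < x - y ∧ t < x) := by
  rcases le_total 0 x with hx | hx <;> rcases le_total 0 y with hy | hy
  · rcases le_total x y with hxy | hxy
    · obtain ⟨h1, h2 | h2⟩ := adj_core ht ht' h hx hxy
      · exact Or.inl ⟨h2, h1⟩
      · exact Or.inr (Or.inl ⟨h1, h2⟩)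
    · obtain ⟨h1, h2 | h2⟩ := adj_core (x := y) (y := x) ht ht' (by linarith) hy hxy
      · exact Or.inl ⟨h1, h2⟩
      · exact Or.inr (Or.inr (Or.inr (Or.inr (Or.inr ⟨h2, h1⟩))))
  · obtain ⟨h1, h2 | h2⟩ := adj_core (x := x) (y := x - y) ht ht' (by linarith) hx (by linarith)
    · exact Or.inr (Or.inr (Or.inr (Or.inr (Or.inr ⟨h1, h2⟩))))
    · exact Or.inr (Or.inr (Or.inr (Or.inr (Or.inl ⟨by linarith, h1⟩))))
  · obtain ⟨h1, h2 | h2⟩ := adj_core (x := y) (y := y - x) ht ht' (by linarith) hy (by linarith)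
    · exact Or.inr (Or.inl ⟨h2, h1⟩)
    · exact Or.inr (Or.inr (Or.inl ⟨h1, by linarith⟩))
  · rcases le_total x y with hxy | hxy
    · obtain ⟨h1, h2 | h2⟩ := adj_core (x := -y) (y := -x) ht ht' (by linarith) (by linarith)
        (by linarith)
      · exact Or.inr (Or.inr (Or.inr (Or.inl ⟨h1, h2⟩)))
      · exact Or.inr (Or.inr (Or.inl ⟨by linarith, h1⟩))
    · obtain ⟨h1, h2 | h2⟩ := adj_core (x := -x) (y := -y) ht ht' (by linarith) (by linarith)
        (by linarith)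
      · exact Or.inr (Or.inr (Or.inr (Or.inl ⟨h2, h1⟩)))
      · exact Or.inr (Or.inr (Or.inr (Or.inr (Or.inl ⟨h1, by linarith⟩))))

/-- scalar product with the direction `a` -/
def fr (z w : ℂ) (a : ℝ) : ℝ :=
  (w.re - z.re) * Real.cos (a * (Real.pi / 3)) + (w.im - z.im) * Real.sin (a * (Real.pi / 3))

theorem dist_fr (z w : ℂ) (a : ℝ) : dist (pt z a) w ^ 2 = 1 - 2 * fr z w a + dist w z ^ 2 := by
  rw [sq_dist, sq_dist]
  unfold pt fr
  simp only [Complex.add_re, Complex.add_im, cis_re, cis_im]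
  have h1 := Real.sin_sq_add_cos_sq (a * (Real.pi / 3))
  linear_combination h1

theorem in_of_fr {z w : ℂ} {a : ℝ} (h : dist w z ^ 2 / 2 < fr z w a) : dist (pt z a) w < 1 := by
  have h1 := dist_fr z w a
  have h2 : dist (pt z a) w ^ 2 < 1 := by rw [h1]; linarith
  by_contra hcon
  push Not at hcon
  have := one_le_pow₀ (n := 2) hcon
  linarith

theorem fr_of_in {z w : ℂ} {a : ℝ} (h : dist (pt z a) w < 1) : dist w z ^ 2 / 2 < fr z w a := by
  have h1 := dist_fr z w a
  have h2 : dist (pt z a) w ^ 2 < 1 := by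
    have := dist_nonneg (x := pt z a) (y := w)
    nlinarith
  linarith

theorem fr_of_out {z w : ℂ} {a : ℝ} (h : 1 < dist (pt z a) w) : fr z w a < dist w z ^ 2 / 2 := by
  have h1 := dist_fr z w a
  have h2 : 1 < dist (pt z a) w ^ 2 := by nlinarith
  linarith

theorem fr_two (z w : ℂ) (a : ℝ) : fr z w (a + 2) = fr z w (a + 1) - fr z w a := by
  unfold fr
  have e1 : (a + 1) * (Real.pi / 3) = a * (Real.pi / 3) + Real.pi / 3 := by ring
  have e2 : (a + 2) * (Real.pi / 3) = a * (Real.pi / 3) + 2 * (Real.pi / 3) := by ring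
  have c3 := Real.cos_pi_div_three
  have s3 := Real.sin_pi_div_three
  have h3 : √3 * √3 = 3 := Real.mul_self_sqrt (by norm_num)
  rw [e1, e2, Real.cos_add, Real.sin_add, Real.cos_add, Real.sin_add, Real.cos_two_mul,
    Real.sin_two_mul, c3, s3]
  ring

theorem fr_three (z w : ℂ) (a : ℝ) : fr z w (a + 3) = -fr z w a := by
  unfold fr
  have e1 : (a + 3) * (Real.pi / 3) = a * (Real.pi / 3) + Real.pi := by ring
  rw [e1, Real.cos_add_pi, Real.sin_add_pi]
  ring

theorem fr_sq (z w : ℂ) (a : ℝ) :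
    fr z w a ^ 2 - fr z w a * fr z w (a + 1) + fr z w (a + 1) ^ 2 = 3 / 4 * dist w z ^ 2 := by
  unfold fr
  have e1 : (a + 1) * (Real.pi / 3) = a * (Real.pi / 3) + Real.pi / 3 := by ring
  have h3 : √3 * √3 = 3 := Real.mul_self_sqrt (by norm_num)
  rw [e1, Real.cos_add, Real.sin_add, Real.cos_pi_div_three, Real.sin_pi_div_three, sq_dist]
  have h1 := Real.sin_sq_add_cos_sq (a * (Real.pi / 3))
  set c := Real.cos (a * (Real.pi / 3))
  set d := Real.sin (a * (Real.pi / 3))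
  set p := w.re - z.re
  set q := w.im - z.im
  linear_combination (3 / 4 * (p ^ 2 + q ^ 2)) * h1 + (1 / 4 * (p * d - q * c) ^ 2) * h3

/-- for `w ≠ z` near `z` two neighbouring discs contain `w` -/
theorem adj (z w : ℂ) (s : ℝ) (h0 : w ≠ z) (h1 : dist w z < 1 / 2) :
    ∃ K : Fin 6, dist (pt z (s + ((K.val : ℤ) : ℝ))) w < 1 ∧
      dist (pt z (s + (((K + 1 : Fin 6).val : ℤ) : ℝ))) w < 1 := by
  have hd : 0 < dist w z := dist_pos.2 h0
  have ht : 0 < dist w z ^ 2 / 2 := by positivity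
  have ht' : dist w z ^ 2 / 2 < 1 / 4 := by nlinarith
  have hq := fr_sq z w s
  have f2 := fr_two z w s
  have f3 := fr_three z w s
  have f4 : fr z w (s + 4) = -fr z w (s + 1) := by
    have := fr_three z w (s + 1)
    rw [show s + 1 + 3 = s + 4 by ring] at this
    exact this
  have f5 : fr z w (s + 5) = fr z w s - fr z w (s + 1) := by
    have := fr_three z w (s + 2)
    rw [show s + 2 + 3 = s + 5 by ring, f2] at this
    linarith
  have key := two_adj (x := fr z w s) (y := fr z w (s + 1)) ht ht' (by linarith)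
  rcases key with h | h | h | h | h | h
  · refine ⟨0, in_of_fr ?_, in_of_fr ?_⟩
    · show _ < fr z w (s + (((0 : ℕ) : ℤ) : ℝ)); rw [show s + (((0 : ℕ) : ℤ) : ℝ) = s by simp]; exact h.1
    · show _ < fr z w (s + (((1 : ℕ) : ℤ) : ℝ)); push_cast; exact h.2
  · refine ⟨1, in_of_fr ?_, in_of_fr ?_⟩
    · show _ < fr z w (s + (((1 : ℕ) : ℤ) : ℝ)); push_cast; exact h.1
    · show _ < fr z w (s + (((2 : ℕ) : ℤ) : ℝ)); push_cast; rw [f2]; exact h.2
  · refine ⟨2, in_of_fr ?_, in_of_fr ?_⟩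
    · show _ < fr z w (s + (((2 : ℕ) : ℤ) : ℝ)); push_cast; rw [f2]; exact h.1
    · show _ < fr z w (s + (((3 : ℕ) : ℤ) : ℝ)); push_cast; rw [f3]; exact h.2
  · refine ⟨3, in_of_fr ?_, in_of_fr ?_⟩
    · show _ < fr z w (s + (((3 : ℕ) : ℤ) : ℝ)); push_cast; rw [f3]; exact h.1
    · show _ < fr z w (s + (((4 : ℕ) : ℤ) : ℝ)); push_cast; rw [f4]; exact h.2
  · refine ⟨4, in_of_fr ?_, in_of_fr ?_⟩
    · show _ < fr z w (s + (((4 : ℕ) : ℤ) : ℝ)); push_cast; rw [f4]; exact h.1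
    · show _ < fr z w (s + (((5 : ℕ) : ℤ) : ℝ)); push_cast; rw [f5]; exact h.2
  · refine ⟨5, in_of_fr ?_, in_of_fr ?_⟩
    · show _ < fr z w (s + (((5 : ℕ) : ℤ) : ℝ)); push_cast; rw [f5]; exact h.1
    · show _ < fr z w (s + (((0 : ℕ) : ℤ) : ℝ)); rw [show s + (((0 : ℕ) : ℤ) : ℝ) = s by simp]; exact h.2

set_option maxRecDepth 100000 in
/-- the twelve shapes -/
theorem shape : ∀ I : Fin 6 → Bool, (∀ K, I K = true → I (K + 3) = false) →
    (∀ K, I K = true → I (K + 2) = true → I (K + 1) = true) →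
    (∃ K, I K = true ∧ I (K + 1) = true) →
    (∃ w, ∀ K, I K = true ↔ K = w ∨ K = w + 1 ∨ K = w + 2) ∨
    (∃ w, ∀ K, I K = true ↔ K = w + 1 ∨ K = w + 2) := by
  decide

end Vale.Agent.P032.H515
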