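import Vale.Agent.P032.H89.Perf
import Vale.Agent.P032.H89.SysI
import Vale.Agent.P032.H515.SideM

/-!
# P032, alternating points: the sided rules at a base `s` (isolated or not)

`QQ T z s r` : the states which occur at generic times arbitrarily near `s` on the right
(`r = true`) or on the left (`r = false`).

* `s3` : the region rule for a colour of the centre,
* `s1`, `s2r`, `s2l` : the rules for the whole letter of a neighbour.
-/

open Set Filter Topology Metric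

noncomputable section

namespace Vale.Agent.P032.H515

open Vale.Agent.P032.Six Vale.Agent.P032.S5.H767 Vale.Agent.P032.H89

variable {U : Fin 6 → Set ℂ} {T : ℂ → Set (Fin 6)} {z : ℂ} {s : ℝ}

/-- one sided neighbourhoods -/
def sd (r : Bool) (s : ℝ) : Filter ℝ := cond r (𝓝[>] s) (𝓝[<] s)

/-- the states present on one side of `s` -/
def QQ (T : ℂ → Set (Fin 6)) (z : ℂ) (s : ℝ) (r : Bool) : Set State :=
  {σ | ∃ᶠ τ in sd r s, JGen T z s τ ∧ st T z s τ = σ}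

/-- the offset `δ` is on the side `r` and smaller than `η` -/
def Off (r : Bool) (η δ : ℝ) : Prop := cond r (0 < δ ∧ δ < η) (-η < δ ∧ δ < 0)

theorem sd_le (r : Bool) (s : ℝ) : sd r s ≤ 𝓝 s := by
  cases r
  · exact nhdsWithin_le_nhds
  · exact nhdsWithin_le_nhds

theorem ev_off (r : Bool) (s : ℝ) {η : ℝ} (hη : 0 < η) : ∀ᶠ τ in sd r s, Off r η (τ - s) := by
  cases r
  · have h1 : ∀ᶠ τ in 𝓝[<] s, τ ∈ Ioo (s - η) s :=
      Ioo_mem_nhdsLT (by linarith)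
    exact h1.mono fun τ hτ => ⟨by linarith [hτ.1], by linarith [hτ.2]⟩
  · have h1 : ∀ᶠ τ in 𝓝[>] s, τ ∈ Ioo s (s + η) :=
      Ioo_mem_nhdsGT (by linarith)
    exact h1.mono fun τ hτ => ⟨by linarith [hτ.1], by linarith [hτ.2]⟩

theorem freq_off (r : Bool) (s : ℝ) {p : ℝ → Prop}
    (h : ∀ η > 0, ∃ τ, Off r η (τ - s) ∧ p τ) : ∃ᶠ τ in sd r s, p τ := by
  intro hcon
  cases r
  · have h1 : ∀ᶠ τ in 𝓝[<] s, ¬ p τ := hcon
    obtain ⟨l, hl, hl'⟩ := mem_nhdsLT_iff_exists_Ioo_subset.1 h1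
    have hl0 : l < s := hl
    obtain ⟨τ, ⟨h2, h3⟩, h4⟩ := h (s - l) (by linarith)
    exact hl' ⟨by linarith, by linarith⟩ h4
  · have h1 : ∀ᶠ τ in 𝓝[>] s, ¬ p τ := hcon
    obtain ⟨l, hl, hl'⟩ := mem_nhdsGT_iff_exists_Ioo_subset.1 h1
    have hl0 : s < l := hl
    obtain ⟨τ, ⟨h2, h3⟩, h4⟩ := h (l - s) (by linarith)
    exact hl' ⟨by linarith, by linarith⟩ h4

/-- pigeonhole over the finitely many states -/
theorem exists_state {r : Bool} {P : State → Prop}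
    (h : ∃ᶠ τ in sd r s, JGen T z s τ ∧ P (st T z s τ)) : ∃ σ ∈ QQ T z s r, P σ := by
  by_contra hcon
  push Not at hcon
  have h1 : ∀ σ : State, ∀ᶠ τ in sd r s, P σ → ¬ (JGen T z s τ ∧ st T z s τ = σ) := by
    intro σ
    by_cases hP : P σ
    · have h2 : σ ∉ QQ T z s r := fun h3 => hcon σ h3 hP
      have h3 : ∀ᶠ τ in sd r s, ¬ (JGen T z s τ ∧ st T z s τ = σ) := not_frequently.1 h2
      exact h3.mono fun τ hτ _ => hτ
    · exact Eventually.of_forall fun τ h2 => absurd h2 hP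
  have h2 := eventually_all.2 h1
  obtain ⟨τ, ⟨h3, h4⟩, h5⟩ := (h.and_eventually h2).exists
  exact h5 _ h4 ⟨h3, rfl⟩

/-- **From crossings to states.** -/
theorem n_of (h : Irr U T) {p : Option (Fin 6)} {j : Fin 6} {W : Set (Fin 6)} {r : Bool} {n : ℤ}
    (hn : (j.val : ℤ) % 6 = n % 6)
    (H : ∀ η > 0, ∃ δ, Off r η δ ∧ Disjoint (T (pt (npt z s p) (s + n + δ))) W) :
    ∃ σ ∈ QQ T z s r, Disjoint (σ p j) W := by
  refine exists_state (P := fun σ => Disjoint (σ p j) W) (freq_off r s fun η hη => ?_)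
  obtain ⟨δ, hδ, hd⟩ := H η hη
  have h1 : ∀ᶠ τ in 𝓝 (s + δ), T (pt (npt z s p) (τ + n)) ⊆ T (pt (npt z s p) (s + n + δ)) := by
    have h2 := (tendsto_pt (npt z s p) (s + δ) n).eventually (h.nhd _)
    have e : s + δ + (n : ℝ) = s + n + δ := by ring
    rw [e] at h2
    exact h2
  have h2 : ∀ᶠ τ in 𝓝 (s + δ), Off r η (τ - s) := by
    have hc : Tendsto (fun τ : ℝ => τ - s) (𝓝 (s + δ)) (𝓝 δ) := by
      have h3 : Continuous fun τ : ℝ => τ - s := by fun_prop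
      have h4 := h3.tendsto (s + δ)
      rwa [add_sub_cancel_left] at h4
    have ho : IsOpen {δ' : ℝ | Off r η δ'} := by
      cases r
      · exact isOpen_Ioo
      · exact isOpen_Ioo
    exact hc.eventually (ho.mem_nhds hδ)
  obtain ⟨O, hO, hOo, hOm⟩ := _root_.eventually_nhds_iff.1 (h1.and h2)
  obtain ⟨τ, hτ, hg⟩ := jgen_exists h z s hOo ⟨_, hOm⟩
  refine ⟨τ, (hO τ hτ).2, hg, ?_⟩
  rw [st_eq T z s τ p j hn]
  exact hd.mono_left (hO τ hτ).1

/-- a crossing point of the circle of a point of `U a` -/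
theorem disj_of_U (h : Irr U T) {a : Fin 6} {w x : ℂ} (hw : w ∈ U a) (hd : dist x w = 1) :
    Disjoint (T x) {a} := by
  rw [Set.disjoint_singleton_right]
  intro hx
  exact h.mx.notMem' hw (by rw [dist_comm]; exact hd) (h.sub _ hx)

/-! ### General rows for a colour near `v` -/

/-- `b - g ∈ (0, 3)`: outside the disc of `q = pt M (s + b)`: left, inside: right -/
theorem rowP (h : Irr U T) {p : Option (Fin 6)} {j : Fin 6} {n g : ℤ} (hn : (j.val : ℤ) % 6 = n % 6)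
    (h0 : 0 < n - g) (h3 : n - g < 3) {v : ℂ} (hv : v = pt (pt (npt z s p) (s + n)) (s + g))
    {a : Fin 6} (i : Bool)
    (H : ∃ᶠ w in 𝓝 v, w ∈ U a ∧
      cond i (dist (pt (npt z s p) (s + n)) w < 1) (1 < dist (pt (npt z s p) (s + n)) w)) :
    ∃ σ ∈ QQ T z s i, Disjoint (σ p j) {a} := by
  refine n_of h hn fun η hη => ?_
  have h0' : (0 : ℝ) < (s + n) - (s + g) := by
    have : (0 : ℝ) < ((n - g : ℤ) : ℝ) := by exact_mod_cast h0
    push_cast at this; linarith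
  have h3' : (s + n) - (s + g) < (3 : ℝ) := by
    have : ((n - g : ℤ) : ℝ) < 3 := by exact_mod_cast h3
    push_cast at this; linarith
  have hc := crossP (npt z s p) h0' h3' hη
  rw [← hv] at hc
  obtain ⟨w, ⟨hw, hi⟩, hc1, hc2⟩ := (H.and_eventually hc).exists
  cases i
  · obtain ⟨δ, d1, d2, d3⟩ := hc1 hi
    exact ⟨δ, ⟨d1, d2⟩, disj_of_U h hw d3⟩
  · obtain ⟨δ, d1, d2, d3⟩ := hc2 hi
    exact ⟨δ, ⟨d1, d2⟩, disj_of_U h hw d3⟩

/-- `b - g ∈ (-3, 0)`: outside the disc of `q = pt M (s + b)`: right, inside: left -/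
theorem rowM (h : Irr U T) {p : Option (Fin 6)} {j : Fin 6} {n g : ℤ} (hn : (j.val : ℤ) % 6 = n % 6)
    (h0 : n - g < 0) (h3 : -3 < n - g) {v : ℂ} (hv : v = pt (pt (npt z s p) (s + n)) (s + g))
    {a : Fin 6} (i : Bool)
    (H : ∃ᶠ w in 𝓝 v, w ∈ U a ∧
      cond i (dist (pt (npt z s p) (s + n)) w < 1) (1 < dist (pt (npt z s p) (s + n)) w)) :
    ∃ σ ∈ QQ T z s (!i), Disjoint (σ p j) {a} := by
  refine n_of h hn fun η hη => ?_
  have h0' : (s + n) - (s + g) < (0 : ℝ) := by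
    have : ((n - g : ℤ) : ℝ) < 0 := by exact_mod_cast h0
    push_cast at this; linarith
  have h3' : (-3 : ℝ) < (s + n) - (s + g) := by
    have : (-3 : ℝ) < ((n - g : ℤ) : ℝ) := by exact_mod_cast h3
    push_cast at this; linarith
  have hc := crossM (npt z s p) h0' h3' hη
  rw [← hv] at hc
  obtain ⟨w, ⟨hw, hi⟩, hc1, hc2⟩ := (H.and_eventually hc).exists
  cases i
  · obtain ⟨δ, d1, d2, d3⟩ := hc1 hi
    exact ⟨δ, ⟨d1, d2⟩, disj_of_U h hw d3⟩
  · obtain ⟨δ, d1, d2, d3⟩ := hc2 hi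
    exact ⟨δ, ⟨d1, d2⟩, disj_of_U h hw d3⟩

/-! ### Regions -/

/-- the complement of the six circles is open and dense -/
theorem dense_off (v : ℂ) (s : ℝ) :
    Dense {w | ∀ K : Fin 6, dist (pt v (s + ((K.val : ℤ) : ℝ))) w ≠ 1} ∧
    IsOpen {w | ∀ K : Fin 6, dist (pt v (s + ((K.val : ℤ) : ℝ))) w ≠ 1} := by
  have e : {w | ∀ K : Fin 6, dist (pt v (s + ((K.val : ℤ) : ℝ))) w ≠ 1} =
      ⋂ K : Fin 6, (sphere (pt v (s + ((K.val : ℤ) : ℝ))) 1)ᶜ := by
    ext w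
    simp only [Set.mem_ofPred_eq, mem_iInter, mem_compl_iff, mem_sphere]
    exact forall_congr' fun K => by rw [dist_comm]
  have ho : ∀ K : Fin 6, IsOpen (sphere (pt v (s + ((K.val : ℤ) : ℝ))) 1)ᶜ :=
    fun K => isClosed_sphere.isOpen_compl
  have hd : ∀ K : Fin 6, Dense (sphere (pt v (s + ((K.val : ℤ) : ℝ))) 1)ᶜ := by
    intro K
    rw [← interior_eq_empty_iff_dense_compl]
    exact interior_sphere _ one_ne_zero
  rw [e]
  exact ⟨dense_iInter_of_isOpen ho hd, isOpen_iInter_of_finite ho⟩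

/-- **Region.** -/
theorem region (h : Irr U T) {v : ℂ} (s : ℝ) {a : Fin 6} (ha : a ∈ T v) :
    ∃ I : Fin 6 → Bool, (∃ᶠ w in 𝓝 v, w ∈ U a ∧ ∀ K : Fin 6,
        cond (I K) (dist (pt v (s + ((K.val : ℤ) : ℝ))) w < 1)
          (1 < dist (pt v (s + ((K.val : ℤ) : ℝ))) w)) ∧
      ((∃ w, ∀ K, I K = true ↔ K = w ∨ K = w + 1 ∨ K = w + 2) ∨
       (∃ w, ∀ K, I K = true ↔ K = w + 1 ∨ K = w + 2)) := by
  obtain ⟨hd, -⟩ := dense_off v s
  have hopen : IsOpen (U a) := h.mx.isOpen a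
  have h1 : ∃ᶠ w in 𝓝 v, w ∈ U a ∧ ∀ K : Fin 6, dist (pt v (s + ((K.val : ℤ) : ℝ))) w ≠ 1 := by
    rw [frequently_iff]
    intro N hN
    obtain ⟨O, hON, hO, hvO⟩ := _root_.mem_nhds_iff.1 hN
    obtain ⟨w, hw, hwO⟩ := ((h.pure v a ha).and_eventually (hO.mem_nhds hvO)).exists
    have hwU : w ∈ U a := h.mem_of_single (by rw [hw])
    obtain ⟨w', ⟨h2, h3⟩, h4⟩ := hd.inter_open_nonempty (O ∩ U a) (hO.inter hopen) ⟨w, hwO, hwU⟩
    exact ⟨w', hON h2, h3, h4⟩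
  have h2 : ∃ I : Fin 6 → Bool, ∃ᶠ w in 𝓝 v, w ∈ U a ∧ ∀ K : Fin 6,
      cond (I K) (dist (pt v (s + ((K.val : ℤ) : ℝ))) w < 1)
          (1 < dist (pt v (s + ((K.val : ℤ) : ℝ))) w) := by
    by_contra hcon
    have h3 : ∀ I : Fin 6 → Bool, ∀ᶠ w in 𝓝 v, ¬ (w ∈ U a ∧ ∀ K : Fin 6,
      cond (I K) (dist (pt v (s + ((K.val : ℤ) : ℝ))) w < 1)
          (1 < dist (pt v (s + ((K.val : ℤ) : ℝ))) w)) := by
      intro I
      by_contra h4
      exact hcon ⟨I, h4⟩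
    obtain ⟨w, ⟨h4, h5⟩, h6⟩ := (h1.and_eventually (eventually_all.2 h3)).exists
    classical
    refine h6 (fun K => decide (dist (pt v (s + ((K.val : ℤ) : ℝ))) w < 1)) ⟨h4, fun K => ?_⟩
    by_cases h7 : dist (pt v (s + ((K.val : ℤ) : ℝ))) w < 1
    · simp only [h7, decide_true, cond_true]
    · simp only [h7, decide_false, cond_false]
      exact lt_of_le_of_ne (not_lt.1 h7) (Ne.symm (h5 K))
  obtain ⟨I, hI⟩ := h2
  refine ⟨I, hI, ?_⟩
  have hnear : ∀ᶠ w in 𝓝 v, dist w v < 1 / 2 := by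
    have := Metric.ball_mem_nhds v (half_pos one_pos)
    filter_upwards [this] with w hw
    exact hw
  obtain ⟨w, ⟨-, hw⟩, hwv⟩ := (hI.and_eventually hnear).exists
  have hin : ∀ K, I K = true → dist (pt v (s + ((K.val : ℤ) : ℝ))) w < 1 := by
    intro K hK
    have := hw K
    rwa [hK] at this
  have hin' : ∀ K, dist (pt v (s + ((K.val : ℤ) : ℝ))) w < 1 → I K = true := by
    intro K hK
    by_contra h3
    have h4 : I K = false := by simpa using h3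
    have := hw K
    rw [h4] at this
    have h5 : 1 < dist (pt v (s + ((K.val : ℤ) : ℝ))) w := this
    linarith
  have hne : w ≠ v := by
    rintro rfl
    have h3 := hw 0
    rw [dist_pt] at h3
    cases hI0 : I 0
    · rw [hI0] at h3; exact lt_irrefl _ h3
    · rw [hI0] at h3; exact lt_irrefl _ h3
  have e1 : ∀ K : Fin 6, pt v (s + (((K + 1 : Fin 6).val : ℤ) : ℝ)) =
      pt v (s + ((K.val : ℤ) : ℝ) + 1) := by
    intro K
    rw [pt_cong v s (fin_add1 K)]; congr 1; push_cast; ring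
  have e2 : ∀ K : Fin 6, pt v (s + (((K + 2 : Fin 6).val : ℤ) : ℝ)) =
      pt v (s + ((K.val : ℤ) : ℝ) + 2) := by
    intro K
    rw [pt_cong v s (fin_add2 K)]; congr 1; push_cast; ring
  have e3 : ∀ K : Fin 6, pt v (s + (((K + 3 : Fin 6).val : ℤ) : ℝ)) =
      pt v (s + ((K.val : ℤ) : ℝ) + 3) := by
    intro K
    rw [pt_cong v s (fin_add3 K)]; congr 1; push_cast; ring
  refine shape I (fun K hK => ?_) (fun K hK hK2 => ?_) ?_
  · by_contra h3
    have h4 : I (K + 3) = true := by simpa using h3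
    have h5 := hin _ h4
    rw [e3] at h5
    exact not_both v w _ (hin K hK) h5
  · refine hin' _ ?_
    have h5 := hin _ hK2
    rw [e2] at h5
    rw [e1]
    by_contra h6
    exact hne (cone (a := s + ((K.val : ℤ) : ℝ)) (b := s + ((K.val : ℤ) : ℝ) + 1)
      (c := s + ((K.val : ℤ) : ℝ) + 2) (by linarith) (by linarith) (by linarith)
      (hin K hK).le h5.le (not_lt.1 h6))
  · obtain ⟨K, h3, h4⟩ := adj v w s hne hwv
    exact ⟨K, hin' _ h3, hin' _ h4⟩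

/-! ### The rule for a colour of the centre -/

/-- **S3.** -/
theorem s3 (h : Irr U T) (z : ℂ) (s : ℝ) {a : Fin 6} (ha : a ∈ T z) :
    ∃ I : Fin 6 → Bool,
      ((∃ w, ∀ K, I K = true ↔ K = w ∨ K = w + 1 ∨ K = w + 2) ∨
       (∃ w, ∀ K, I K = true ↔ K = w + 1 ∨ K = w + 2)) ∧
      ∀ K, (∃ σ ∈ QQ T z s (!I K), Disjoint (σ (some (K - 1)) (K + 1)) {a}) ∧
        (∃ σ ∈ QQ T z s (I K), Disjoint (σ (some (K + 1)) (K - 1)) {a}) := by
  obtain ⟨I, hI, hsh⟩ := region h s ha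
  refine ⟨I, hsh, fun K => ?_⟩
  have hIK : ∃ᶠ w in 𝓝 z, w ∈ U a ∧ cond (I K) (dist (pt z (s + ((K.val : ℤ) : ℝ))) w < 1)
          (1 < dist (pt z (s + ((K.val : ℤ) : ℝ))) w) := hI.mono fun w hw => ⟨hw.1, hw.2 K⟩
  constructor
  · -- `M = V (K - 1)`, slot `K + 1`, `g = K + 3`
    have hM : npt z s (some (K - 1)) = pt z (s + (((K.val : ℤ) - 1 : ℤ) : ℝ)) :=
      npt_eq z s (K - 1) (fin_sub1 K)
    have hq : pt (npt z s (some (K - 1))) (s + (((K.val : ℤ) + 1 : ℤ) : ℝ)) =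
        pt z (s + ((K.val : ℤ) : ℝ)) := by
      rw [hM]
      have e1 : s + (((K.val : ℤ) + 1 : ℤ) : ℝ) = s + (((K.val : ℤ) - 1 : ℤ) : ℝ) + 2 := by
        push_cast; ring
      rw [e1, pt_right]
      congr 1; push_cast; ring
    refine rowM h (p := some (K - 1)) (j := K + 1) (n := (K.val : ℤ) + 1) (g := (K.val : ℤ) + 3)
      (fin_add1 K) (by omega) (by omega) (v := z) ?_ (I K) ?_
    · rw [hq]
      have e1 : s + (((K.val : ℤ) + 3 : ℤ) : ℝ) = s + ((K.val : ℤ) : ℝ) + 3 := by push_cast; ring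
      rw [e1, pt_back]
    · rw [hq]; exact hIK
  · have hM : npt z s (some (K + 1)) = pt z (s + (((K.val : ℤ) + 1 : ℤ) : ℝ)) :=
      npt_eq z s (K + 1) (fin_add1 K)
    have hq : pt (npt z s (some (K + 1))) (s + (((K.val : ℤ) - 1 : ℤ) : ℝ)) =
        pt z (s + ((K.val : ℤ) : ℝ)) := by
      rw [hM]
      have e1 : s + (((K.val : ℤ) - 1 : ℤ) : ℝ) = s + (((K.val : ℤ) + 1 : ℤ) : ℝ) - 2 := by
        push_cast; ring
      rw [e1, pt_left]
      congr 1; push_cast; ring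
    refine rowP h (p := some (K + 1)) (j := K - 1) (n := (K.val : ℤ) - 1) (g := (K.val : ℤ) - 3)
      (fin_sub1 K) (by omega) (by omega) (v := z) ?_ (I K) ?_
    · rw [hq]
      have e1 : pt (pt z (s + ((K.val : ℤ) : ℝ))) (s + (((K.val : ℤ) - 3 : ℤ) : ℝ)) =
          pt (pt z (s + ((K.val : ℤ) : ℝ))) (s + (((K.val : ℤ) + 3 : ℤ) : ℝ)) :=
        pt_cong _ s (by omega)
      have e2 : s + (((K.val : ℤ) + 3 : ℤ) : ℝ) = s + ((K.val : ℤ) : ℝ) + 3 := by push_cast; ring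
      rw [e1, e2, pt_back]
    · rw [hq]; exact hIK

/-- **S3**, in the form of `SysI` (without the cusp addendum). -/
theorem s3_cr (h : Irr U T) (z : ℂ) (s : ℝ) {a : Fin 6} (ha : a ∈ T z) :
    ∃ I : Fin 6 → Prop, (∀ K, Cr (QQ T z s) K (I K) {a}) ∧
      ((∃ w, ∀ K, I K ↔ (K = w ∨ K = w + 1 ∨ K = w + 2)) ∨
       (∃ w, ∀ K, I K ↔ (K = w + 1 ∨ K = w + 2))) := by
  obtain ⟨I, hsh, hI⟩ := s3 h z s ha
  refine ⟨fun K => I K = true, fun K => ⟨fun hK => ?_, fun hK => ?_⟩, hsh⟩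
  · have h1 : I K = false := by simpa using hK
    have h2 := hI K
    rw [h1] at h2
    exact h2
  · have h2 := hI K
    have h1 : I K = true := hK
    rw [h1] at h2
    exact h2

/-! ### Whole letters -/

/-- the point `pt P (s + n0 + δ)` against the disc of a neighbour of `pt P (s + n0)` -/
theorem side_in (P : ℂ) (s : ℝ) {n0 g' : ℤ} {t i : Bool}
    (hi : (n0 - g' < 0 ∧ -3 < n0 - g' ∧ i = t) ∨ (0 < n0 - g' ∧ n0 - g' < 3 ∧ i = !t)) {δ : ℝ}
    (hδ : Off t 1 δ) :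
    cond i (dist (pt (pt P (s + n0)) (s + g')) (pt P (s + n0 + δ)) < 1)
      (1 < dist (pt (pt P (s + n0)) (s + g')) (pt P (s + n0 + δ))) := by
  rw [dist_comm]
  have e : (s + (n0 : ℝ)) - (s + (g' : ℝ)) = ((n0 - g' : ℤ) : ℝ) := by push_cast; ring
  have hδ' : |δ| < 1 := by
    cases t
    · obtain ⟨a1, a2⟩ := hδ
      rw [abs_lt]; constructor <;> linarith
    · obtain ⟨a1, a2⟩ := hδ
      rw [abs_lt]; constructor <;> linarith
  have hδ3 : |δ| < 3 := by linarith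
  rw [abs_lt] at hδ'
  rcases hi with ⟨h1, h2, rfl⟩ | ⟨h1, h2, rfl⟩
  · have c1 : ((n0 - g' : ℤ) : ℝ) ≤ -1 := by exact_mod_cast (by omega : n0 - g' ≤ -1)
    have c2 : (-3 : ℝ) < ((n0 - g' : ℤ) : ℝ) := by exact_mod_cast h2
    have hφ : |(s + (n0 : ℝ)) - (s + (g' : ℝ))| < 3 := by
      rw [e, abs_lt]; constructor <;> linarith
    cases i
    · refine gt_one P hφ hδ3 ?_
      rw [e]
      have h3 : δ < 0 := hδ.2
      exact mul_pos_of_neg_of_neg h3 (by linarith [hδ'.2])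
    · refine lt_one P hφ hδ3 ?_
      rw [e]
      have h3 : 0 < δ := hδ.1
      exact mul_neg_of_pos_of_neg h3 (by linarith [hδ'.2])
  · have c1 : (1 : ℝ) ≤ ((n0 - g' : ℤ) : ℝ) := by exact_mod_cast (by omega : 1 ≤ n0 - g')
    have c2 : ((n0 - g' : ℤ) : ℝ) < 3 := by exact_mod_cast h2
    have hφ : |(s + (n0 : ℝ)) - (s + (g' : ℝ))| < 3 := by
      rw [e, abs_lt]; constructor <;> linarith
    cases t
    · refine lt_one P hφ hδ3 ?_
      rw [e]
      have h3 : δ < 0 := hδ.2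
      exact mul_neg_of_neg_of_pos h3 (by linarith [hδ'.1])
    · refine gt_one P hφ hδ3 ?_
      rw [e]
      have h3 : 0 < δ := hδ.1
      exact mul_pos h3 (by linarith [hδ'.1])

/-- `K = k + 3`: always outside -/
theorem side_out (P : ℂ) (s : ℝ) (n0 : ℤ) {t : Bool} {δ : ℝ} (hδ : Off t 1 δ) :
    1 < dist (pt (pt P (s + n0)) (s + n0)) (pt P (s + n0 + δ)) := by
  rw [dist_comm]
  have hδ' : |δ| < 1 ∧ δ ≠ 0 := by
    cases t
    · obtain ⟨a1, a2⟩ := hδ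
      exact ⟨by rw [abs_lt]; constructor <;> linarith, a2.ne⟩
    · obtain ⟨a1, a2⟩ := hδ
      exact ⟨by rw [abs_lt]; constructor <;> linarith, a1.ne'⟩
  refine gt_one P (by simp) (by linarith [hδ'.1]) ?_
  have : (s + (n0 : ℝ)) - (s + n0) + δ = δ := by ring
  rw [this]
  exact mul_self_pos.2 hδ'.2

/-- the general row for a whole letter -/
theorem rowW (h : Irr U T) {t : Bool} {σ : State} (hσ : σ ∈ QQ T z s t) {p0 p : Option (Fin 6)}
    {i0 j : Fin 6} {n0 n g : ℤ} (hn0 : (i0.val : ℤ) % 6 = n0 % 6)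
    (hn : (j.val : ℤ) % 6 = n % 6) {i o : Bool}
    (hv : pt (pt (npt z s p) (s + n)) (s + g) = pt (npt z s p0) (s + n0))
    (hi : ∀ δ, Off t 1 δ → cond i
      (dist (pt (npt z s p) (s + n)) (pt (npt z s p0) (s + n0 + δ)) < 1)
      (1 < dist (pt (npt z s p) (s + n)) (pt (npt z s p0) (s + n0 + δ))))
    (ho : (0 < n - g ∧ n - g < 3 ∧ o = i) ∨ (n - g < 0 ∧ -3 < n - g ∧ o = !i))
    (hnd : ∃ ε > 0, ∀ δ δ', Off t ε δ → |δ'| < ε →
      pt (npt z s p) (s + n + δ') ≠ npt z s p0 ∧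
      pt (npt z s p) (s + n + δ') + npt z s p0 ≠ 2 * pt (npt z s p0) (s + n0 + δ)) :
    Nn (QQ T z s) p j o (σ p0 i0) := by
  obtain ⟨ε, hε, hnd⟩ := hnd
  refine n_of h hn fun η hη => ?_
  have hη' : 0 < min η ε := lt_min hη hε
  have e : (s + (n : ℝ)) - (s + (g : ℝ)) = ((n - g : ℤ) : ℝ) := by push_cast; ring
  -- the crossing property
  have hcr : ∀ᶠ w in 𝓝 (pt (npt z s p0) (s + n0)),
      cond i (dist (pt (npt z s p) (s + n)) w < 1) (1 < dist (pt (npt z s p) (s + n)) w) →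
      ∃ δ, Off o (min η ε) δ ∧ dist (pt (npt z s p) (s + n + δ)) w = 1 := by
    rcases ho with ⟨h1, h2, rfl⟩ | ⟨h1, h2, rfl⟩
    · have c1 : (0 : ℝ) < (s + (n : ℝ)) - (s + (g : ℝ)) := by rw [e]; exact_mod_cast h1
      have c2 : (s + (n : ℝ)) - (s + (g : ℝ)) < 3 := by rw [e]; exact_mod_cast h2
      have hc := crossP (npt z s p) c1 c2 hη'
      rw [hv] at hc
      filter_upwards [hc] with w hw hi'
      cases o
      · obtain ⟨δ, d1, d2, d3⟩ := hw.1 hi'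
        exact ⟨δ, ⟨d1, d2⟩, d3⟩
      · obtain ⟨δ, d1, d2, d3⟩ := hw.2 hi'
        exact ⟨δ, ⟨d1, d2⟩, d3⟩
    · have c1 : (s + (n : ℝ)) - (s + (g : ℝ)) < 0 := by rw [e]; exact_mod_cast h1
      have c2 : (-3 : ℝ) < (s + (n : ℝ)) - (s + (g : ℝ)) := by rw [e]; exact_mod_cast h2
      have hc := crossM (npt z s p) c1 c2 hη'
      rw [hv] at hc
      filter_upwards [hc] with w hw hi'
      cases i
      · obtain ⟨δ, d1, d2, d3⟩ := hw.1 hi'
        exact ⟨δ, ⟨d1, d2⟩, d3⟩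
      · obtain ⟨δ, d1, d2, d3⟩ := hw.2 hi'
        exact ⟨δ, ⟨d1, d2⟩, d3⟩
  have hcr' := ((tendsto_pt (npt z s p0) s n0).mono_left (sd_le t s)).eventually hcr
  obtain ⟨τ, ⟨⟨hg, hst⟩, hτ⟩, hoff, hoff'⟩ :=
    (((hσ : ∃ᶠ τ in sd t s, JGen T z s τ ∧ st T z s τ = σ).and_eventually hcr').and_eventually
      ((ev_off t s one_pos).and (ev_off t s hε))).exists
  have eτ : s + (n0 : ℝ) + (τ - s) = τ + n0 := by ring
  have h1 := hi _ hoff
  rw [eτ] at h1
  obtain ⟨δ, hδ, hd⟩ := hτ h1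
  have hδη : Off o η δ ∧ |δ| < ε := by
    cases o
    · obtain ⟨a1, a2⟩ := hδ
      have b1 := min_le_left η ε
      have b2 := min_le_right η ε
      exact ⟨⟨by linarith, a2⟩, by rw [abs_lt]; constructor <;> linarith⟩
    · obtain ⟨a1, a2⟩ := hδ
      have b1 := min_le_left η ε
      have b2 := min_le_right η ε
      exact ⟨⟨a1, by linarith⟩, by rw [abs_lt]; constructor <;> linarith⟩
  refine ⟨δ, hδη.1, ?_⟩
  obtain ⟨n1, n2⟩ := hnd (τ - s) δ hoff' hδη.2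
  rw [eτ] at n2
  have hW : σ p0 i0 = T (pt (npt z s p0) (τ + n0)) := by
    rw [← hst]; exact st_eq T z s τ p0 i0 hn0
  rw [hW, Set.disjoint_left]
  intro c hc hc'
  have hl := ((hg p0) n0).circ
  refine line_free h (dist_pt (npt z s p0) (τ + n0)) (hl.mono fun y hy => ?_)
    (by rw [dist_comm]; exact hd) n1 n2 (h.sub _ hc)
  rw [hy]; exact hc'

/-- no degenerate position -/
theorem nd_of {P M : ℂ} {b b0 : ℝ} (t : Bool) (h1 : pt M b ≠ P) (h2 : pt M b + P ≠ 2 * pt P b0) :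
    ∃ ε > 0, ∀ δ δ', Off t ε δ → |δ'| < ε →
      pt M (b + δ') ≠ P ∧ pt M (b + δ') + P ≠ 2 * pt P (b0 + δ) := by
  have hc1 : Continuous fun q : ℝ × ℝ => pt M (b + q.2) := (continuous_pt M).comp (by fun_prop)
  have hc2 : Continuous fun q : ℝ × ℝ => pt P (b0 + q.1) := (continuous_pt P).comp (by fun_prop)
  have ho : IsOpen {q : ℝ × ℝ | pt M (b + q.2) ≠ P ∧ pt M (b + q.2) + P ≠ 2 * pt P (b0 + q.1)} :=
    (isOpen_ne_fun hc1 continuous_const).inter
      (isOpen_ne_fun (hc1.add continuous_const) (continuous_const.mul hc2))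
  have h0 : ((0 : ℝ), (0 : ℝ)) ∈ {q : ℝ × ℝ | pt M (b + q.2) ≠ P ∧
      pt M (b + q.2) + P ≠ 2 * pt P (b0 + q.1)} := by
    show pt M (b + 0) ≠ P ∧ pt M (b + 0) + P ≠ 2 * pt P (b0 + 0)
    rw [add_zero, add_zero]
    exact ⟨h1, h2⟩
  obtain ⟨ε, hε, hb⟩ := Metric.isOpen_iff.1 ho _ h0
  refine ⟨ε, hε, fun δ δ' hδ hδ' => ?_⟩
  have hδ1 : |δ| < ε := by
    cases t
    · obtain ⟨a1, a2⟩ := hδ
      rw [abs_lt]; constructor <;> linarith
    · obtain ⟨a1, a2⟩ := hδ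
      rw [abs_lt]; constructor <;> linarith
  have h3 : ((δ, δ') : ℝ × ℝ) ∈ ball ((0 : ℝ), (0 : ℝ)) ε := by
    rw [mem_ball, Prod.dist_eq, max_lt_iff]
    constructor
    · simpa [Real.dist_eq] using hδ1
    · simpa [Real.dist_eq] using hδ'
  exact hb h3

/-- `pt P b0` and a neighbour of it -/
theorem nd_pt {P : ℂ} {s : ℝ} {n0 g' : ℤ} (h : n0 - g' ≠ 0) (h1 : -3 < n0 - g')
    (h2 : n0 - g' < 3) :
    pt (pt P (s + n0)) (s + g') ≠ P ∧ pt (pt P (s + n0)) (s + g') + P ≠ 2 * pt P (s + n0) := by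
  constructor
  · intro h3
    have h4 : cis ((s + g') * (Real.pi / 3)) = cis ((s + n0 + 3) * (Real.pi / 3)) := by
      have h5 := pt_three P (s + n0)
      unfold pt at h3 h5
      linear_combination h3 - h5
    obtain ⟨k, hk⟩ := uv_inj h4
    have h6 : ((g' - n0 - 3 - 6 * k : ℤ) : ℝ) = 0 := by push_cast; linarith
    have h7 : g' - n0 - 3 - 6 * k = 0 := by exact_mod_cast h6
    omega
  · intro h3
    have h4 : cis ((s + g') * (Real.pi / 3)) = cis ((s + n0) * (Real.pi / 3)) := by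
      unfold pt at h3
      linear_combination h3
    obtain ⟨k, hk⟩ := uv_inj h4
    have h6 : ((g' - n0 - 6 * k : ℤ) : ℝ) = 0 := by push_cast; linarith
    have h7 : g' - n0 - 6 * k = 0 := by exact_mod_cast h6
    omega

/-- the generic row -/
theorem rowG (h : Irr U T) {t : Bool} {σ : State} (hσ : σ ∈ QQ T z s t) {p0 p : Option (Fin 6)}
    {i0 j : Fin 6} (n0 n g g' : ℤ) (hn0 : (i0.val : ℤ) % 6 = n0 % 6)
    (hn : (j.val : ℤ) % 6 = n % 6) {i o : Bool}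
    (hq : pt (npt z s p) (s + n) = pt (pt (npt z s p0) (s + n0)) (s + g'))
    (hv : pt (pt (npt z s p) (s + n)) (s + g) = pt (npt z s p0) (s + n0))
    (hi : (n0 - g' < 0 ∧ -3 < n0 - g' ∧ i = t) ∨ (0 < n0 - g' ∧ n0 - g' < 3 ∧ i = !t))
    (ho : (0 < n - g ∧ n - g < 3 ∧ o = i) ∨ (n - g < 0 ∧ -3 < n - g ∧ o = !i)) :
    Nn (QQ T z s) p j o (σ p0 i0) := by
  obtain ⟨m1, m2⟩ := nd_pt (P := npt z s p0) (s := s) (n0 := n0) (g' := g')
    (by rcases hi with h1 | h1 <;> omega) (by rcases hi with h1 | h1 <;> omega)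
    (by rcases hi with h1 | h1 <;> omega)
  refine rowW h hσ hn0 hn (i := i) hv (fun δ hδ => ?_) ho (nd_of t ?_ ?_)
  · rw [hq]; exact side_in (npt z s p0) s hi hδ
  · rw [hq]; exact m1
  · rw [hq]; exact m2

theorem node_at (z : ℂ) (s : ℝ) (K : Fin 6) (n : ℤ) (h : (K.val : ℤ) % 6 = n % 6) :
    npt z s (some K) = pt z (s + n) := npt_eq z s K h

/-- the point two steps right of the radial direction -/
theorem step_r (z : ℂ) (s : ℝ) (a b : ℤ) (h : (b - a) % 6 = 2) :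
    pt (pt z (s + a)) (s + b) = pt z (s + ((a + 1 : ℤ) : ℝ)) := by
  have h1 : pt (pt z (s + a)) (s + b) = pt (pt z (s + a)) (s + ((a + 2 : ℤ) : ℝ)) :=
    pt_cong _ s (by omega)
  have e : s + ((a + 2 : ℤ) : ℝ) = s + a + 2 := by push_cast; ring
  rw [h1, e, pt_right]
  congr 1; push_cast; ring

theorem step_l (z : ℂ) (s : ℝ) (a b : ℤ) (h : (b - a) % 6 = 4) :
    pt (pt z (s + a)) (s + b) = pt z (s + ((a - 1 : ℤ) : ℝ)) := by
  have h1 : pt (pt z (s + a)) (s + b) = pt (pt z (s + a)) (s + ((a - 2 : ℤ) : ℝ)) :=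
    pt_cong _ s (by omega)
  have e : s + ((a - 2 : ℤ) : ℝ) = s + a - 2 := by push_cast; ring
  rw [h1, e, pt_left]
  congr 1; push_cast; ring

theorem step_b (z : ℂ) (s : ℝ) (a b : ℤ) (h : (b - a) % 6 = 3) :
    pt (pt z (s + a)) (s + b) = z := by
  have h1 : pt (pt z (s + a)) (s + b) = pt (pt z (s + a)) (s + ((a + 3 : ℤ) : ℝ)) :=
    pt_cong _ s (by omega)
  have e : s + ((a + 3 : ℤ) : ℝ) = s + a + 3 := by push_cast; ring
  rw [h1, e, pt_back]

/-- `S1` at `V_K`, `K = k + e` -/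
theorem s1_core (h : Irr U T) {t : Bool} {σ : State} (hσ : σ ∈ QQ T z s t) (k K : Fin 6) (e : ℤ)
    (he1 : 1 ≤ e) (he5 : e ≤ 5) (hK : (K.val : ℤ) % 6 = (k.val + e) % 6) {i : Bool}
    (hi : (3 < e ∧ i = t) ∨ (e < 3 ∧ i = !t)) :
    Nn (QQ T z s) (some (K - 1)) (K + 1) (!i) (σ (some k) (k + 3)) ∧
    Nn (QQ T z s) (some (K + 1)) (K - 1) i (σ (some k) (k + 3)) := by
  have k1 := fin_add1 K
  have k2 := fin_sub1 K
  have k3 := fin_add3 k
  have hP : npt z s (some k) = pt z (s + ((k.val : ℤ) : ℝ)) := rfl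
  have hz0 : pt (npt z s (some k)) (s + (((k.val : ℤ) + 3 : ℤ) : ℝ)) = z := by
    rw [hP]; exact step_b z s _ _ (by omega)
  constructor
  · have hM := node_at z s (K - 1) ((k.val : ℤ) + e - 1) (by omega)
    have hq : pt (npt z s (some (K - 1))) (s + (((k.val : ℤ) + e + 1 : ℤ) : ℝ)) =
        pt z (s + (((k.val : ℤ) + e : ℤ) : ℝ)) := by
      rw [hM, step_r z s _ _ (by omega)]
      congr 1; push_cast; ring
    refine rowG h hσ ((k.val : ℤ) + 3) ((k.val : ℤ) + e + 1) ((k.val : ℤ) + e + 3)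
      ((k.val : ℤ) + e) (by omega) (by omega) (i := i) ?_ ?_ ?_ (Or.inr ⟨by omega, by omega, rfl⟩)
    · rw [hz0, hq]
    · rw [hz0, hq]
      exact step_b z s _ _ (by omega)
    · rcases hi with ⟨h1, h2⟩ | ⟨h1, h2⟩
      · exact Or.inl ⟨by omega, by omega, h2⟩
      · exact Or.inr ⟨by omega, by omega, h2⟩
  · have hM := node_at z s (K + 1) ((k.val : ℤ) + e + 1) (by omega)
    have hq : pt (npt z s (some (K + 1))) (s + (((k.val : ℤ) + e - 1 : ℤ) : ℝ)) =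
        pt z (s + (((k.val : ℤ) + e : ℤ) : ℝ)) := by
      rw [hM, step_l z s _ _ (by omega)]
      congr 1; push_cast; ring
    refine rowG h hσ ((k.val : ℤ) + 3) ((k.val : ℤ) + e - 1) ((k.val : ℤ) + e - 3)
      ((k.val : ℤ) + e) (by omega) (by omega) (i := i) ?_ ?_ ?_ (Or.inl ⟨by omega, by omega, rfl⟩)
    · rw [hz0, hq]
    · rw [hz0, hq]
      exact step_b z s _ _ (by omega)
    · rcases hi with ⟨h1, h2⟩ | ⟨h1, h2⟩
      · exact Or.inl ⟨by omega, by omega, h2⟩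
      · exact Or.inr ⟨by omega, by omega, h2⟩

theorem fa5 : ∀ k : Fin 6, (((k + 5 : Fin 6).val : ℤ)) % 6 = ((k.val : ℤ) + 5) % 6 := by decide

theorem fa4 : ∀ k : Fin 6, (((k + 4 : Fin 6).val : ℤ)) % 6 = ((k.val : ℤ) + 4) % 6 := by decide

theorem fne : ∀ k : Fin 6, k + 1 ≠ k + 4 ∧ k + 1 ≠ k + 5 ∧ k + 2 ≠ k + 4 ∧ k + 2 ≠ k + 5 ∧
    k + 4 ≠ k + 1 ∧ k + 4 ≠ k + 2 ∧ k + 5 ≠ k + 1 ∧ k + 5 ≠ k + 2 := by decide

theorem dif : ∀ k K : Fin 6, K ≠ k → K ≠ k + 3 → K = k + 1 ∨ K = k + 2 ∨ K = k + 4 ∨ K = k + 5 := by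
  decide

/-- **S1** (`K ≠ k, k + 3`). -/
theorem s1 (h : Irr U T) {t : Bool} {σ : State} (hσ : σ ∈ QQ T z s t) (k K : Fin 6) (hK : K ≠ k)
    (hK3 : K ≠ k + 3) :
    Cr (QQ T z s) K (if t = true then K = k + 4 ∨ K = k + 5 else K = k + 1 ∨ K = k + 2)
      (σ (some k) (k + 3)) := by
  have main : ∀ i : Bool, (Nn (QQ T z s) (some (K - 1)) (K + 1) (!i) (σ (some k) (k + 3)) ∧
      Nn (QQ T z s) (some (K + 1)) (K - 1) i (σ (some k) (k + 3))) → ∀ I : Prop, (I ↔ i = true) →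
      Cr (QQ T z s) K I (σ (some k) (k + 3)) := by
    intro i hi I hI
    refine ⟨fun h1 => ?_, fun h1 => ?_⟩
    · have h2 : i = false := by
        by_contra h3
        exact h1 (hI.2 (by simpa using h3))
      rw [h2] at hi; exact hi
    · rw [hI.1 h1] at hi; exact hi
  rcases dif k K hK hK3 with h1 | h1 | h1 | h1
  · refine main (!t) (s1_core h hσ k K 1 (by omega) (by omega)
      (by rw [h1]; exact fin_add1 k) (Or.inr ⟨by omega, rfl⟩)) _ ?_
    cases t <;> simp [h1, fne]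
  · refine main (!t) (s1_core h hσ k K 2 (by omega) (by omega)
      (by rw [h1]; exact fin_add2 k) (Or.inr ⟨by omega, rfl⟩)) _ ?_
    cases t <;> simp [h1, fne]
  · refine main t (s1_core h hσ k K 4 (by omega) (by omega)
      (by rw [h1]; exact fa4 k) (Or.inl ⟨by omega, rfl⟩)) _ ?_
    cases t <;> simp [h1, fne]
  · refine main t (s1_core h hσ k K 5 (by omega) (by omega)
      (by rw [h1]; exact fa5 k) (Or.inl ⟨by omega, rfl⟩)) _ ?_
    cases t <;> simp [h1, fne]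

theorem fa6 : ∀ k : Fin 6, (((k + 6 : Fin 6).val : ℤ)) % 6 = ((k.val : ℤ) + 6) % 6 := by decide

theorem fs3 : ∀ k : Fin 6, (((k - 3 : Fin 6).val : ℤ)) % 6 = ((k.val : ℤ) - 3) % 6 := by decide

theorem f213 : ∀ k : Fin 6, k + 2 + 1 = k + 3 := by decide

theorem f314 : ∀ k : Fin 6, k + 3 + 1 = k - 2 := by decide

/-- **S2r.** -/
theorem s2r (h : Irr U T) {t : Bool} {σ : State} (hσ : σ ∈ QQ T z s t) (k : Fin 6)
    (hhex : Disjoint (σ (some k) (k + 2)) (σ (some k) (k + 2 + 1))) :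
    Nn (QQ T z s) (some k) (k + 3) t (σ (some k) (k + 2)) ∧
    Nn (QQ T z s) (some (k - 1)) (k + 2) t (σ (some k) (k + 2)) ∧
    Nn (QQ T z s) (some (k + 2)) (k + 5) (!t) (σ (some k) (k + 2)) ∧
    Nn (QQ T z s) (some (k + 3)) (k + 6) (!t) (σ (some k) (k + 2)) ∧
    Nn (QQ T z s) (some (k + 3)) (k + 1) t (σ (some k) (k + 2)) := by
  have a1 := fin_add1 k
  have a2 := fin_add2 k
  have a3 := fin_add3 k
  have b1 := fin_sub1 k
  have a5 : (((k + 5 : Fin 6).val : ℤ)) % 6 = ((k.val : ℤ) + 5) % 6 := fa5 k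
  have a6 : (((k + 6 : Fin 6).val : ℤ)) % 6 = ((k.val : ℤ) + 6) % 6 := fa6 k
  have hP : npt z s (some k) = pt z (s + ((k.val : ℤ) : ℝ)) := rfl
  -- `v = V (k + 1)`
  have hv0 : pt (npt z s (some k)) (s + (((k.val : ℤ) + 2 : ℤ) : ℝ)) =
      pt z (s + (((k.val : ℤ) + 1 : ℤ) : ℝ)) := by
    rw [hP]; exact step_r z s _ _ (by omega)
  -- `z` seen from `v`
  have hz0 : pt (pt (npt z s (some k)) (s + (((k.val : ℤ) + 2 : ℤ) : ℝ)))
      (s + (((k.val : ℤ) + 4 : ℤ) : ℝ)) = z := by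
    rw [hv0]; exact step_b z s _ _ (by omega)
  refine ⟨⟨σ, hσ, ?_⟩, ?_, ?_, ?_, ?_⟩
  · rw [f213] at hhex
    exact hhex.symm
  · have hM := node_at z s (k - 1) ((k.val : ℤ) - 1) (by omega)
    have hq : pt (npt z s (some (k - 1))) (s + (((k.val : ℤ) + 2 : ℤ) : ℝ)) = z := by
      rw [hM]; exact step_b z s _ _ (by omega)
    refine rowG h hσ ((k.val : ℤ) + 2) ((k.val : ℤ) + 2) ((k.val : ℤ) + 1) ((k.val : ℤ) + 4)
      (by omega) (by omega) (i := t) ?_ ?_ (Or.inl ⟨by omega, by omega, rfl⟩)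
      (Or.inl ⟨by omega, by omega, rfl⟩)
    · rw [hz0, hq]
    · rw [hv0, hq]
  · have hM := node_at z s (k + 2) ((k.val : ℤ) + 2) (by omega)
    have hq : pt (npt z s (some (k + 2))) (s + (((k.val : ℤ) + 5 : ℤ) : ℝ)) = z := by
      rw [hM]; exact step_b z s _ _ (by omega)
    refine rowG h hσ ((k.val : ℤ) + 2) ((k.val : ℤ) + 5) ((k.val : ℤ) + 7) ((k.val : ℤ) + 4)
      (by omega) (by omega) (i := t) ?_ ?_ (Or.inl ⟨by omega, by omega, rfl⟩)
      (Or.inr ⟨by omega, by omega, rfl⟩)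
    · rw [hz0, hq]
    · rw [hv0, hq]; exact pt_cong z s (by omega)
  · have hM := node_at z s (k + 3) ((k.val : ℤ) + 3) (by omega)
    have hq : pt (npt z s (some (k + 3))) (s + (((k.val : ℤ) + 6 : ℤ) : ℝ)) = z := by
      rw [hM]; exact step_b z s _ _ (by omega)
    refine rowG h hσ ((k.val : ℤ) + 2) ((k.val : ℤ) + 6) ((k.val : ℤ) + 7) ((k.val : ℤ) + 4)
      (by omega) (by omega) (i := t) ?_ ?_ (Or.inl ⟨by omega, by omega, rfl⟩)
      (Or.inr ⟨by omega, by omega, rfl⟩)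
    · rw [hz0, hq]
    · rw [hv0, hq]; exact pt_cong z s (by omega)
  · -- `q = V (k + 2)`
    have hM := node_at z s (k + 3) ((k.val : ℤ) + 3) (by omega)
    have hq : pt (npt z s (some (k + 3))) (s + (((k.val : ℤ) + 1 : ℤ) : ℝ)) =
        pt z (s + (((k.val : ℤ) + 2 : ℤ) : ℝ)) := by
      rw [hM, step_l z s _ _ (by omega)]
      congr 1; push_cast; ring
    have hq' : pt (pt z (s + (((k.val : ℤ) + 1 : ℤ) : ℝ))) (s + (((k.val : ℤ) + 3 : ℤ) : ℝ)) =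
        pt z (s + (((k.val : ℤ) + 2 : ℤ) : ℝ)) := by
      rw [step_r z s _ _ (by omega)]
      congr 1
    refine rowG h hσ ((k.val : ℤ) + 2) ((k.val : ℤ) + 1) ((k.val : ℤ)) ((k.val : ℤ) + 3)
      (by omega) (by omega) (i := t) ?_ ?_ (Or.inl ⟨by omega, by omega, rfl⟩)
      (Or.inl ⟨by omega, by omega, rfl⟩)
    · rw [hv0, hq, hq']
    · rw [hv0, hq, step_l z s _ _ (by omega)]
      congr 1; push_cast; ring

/-- **S2l.** -/
theorem s2l (h : Irr U T) {t : Bool} {σ : State} (hσ : σ ∈ QQ T z s t) (k : Fin 6)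
    (hhex : Disjoint (σ (some k) (k + 3)) (σ (some k) (k + 3 + 1))) :
    Nn (QQ T z s) (some k) (k + 3) t (σ (some k) (k - 2)) ∧
    Nn (QQ T z s) (some (k + 1)) (k + 4) t (σ (some k) (k - 2)) ∧
    Nn (QQ T z s) (some (k - 2)) (k + 1) (!t) (σ (some k) (k - 2)) ∧
    Nn (QQ T z s) (some (k - 3)) k (!t) (σ (some k) (k - 2)) ∧
    Nn (QQ T z s) (some (k - 3)) (k - 1) t (σ (some k) (k - 2)) := by
  have a1 := fin_add1 k
  have a3 := fin_add3 k
  have b1 := fin_sub1 k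
  have b2 := fin_sub2 k
  have b3 : (((k - 3 : Fin 6).val : ℤ)) % 6 = ((k.val : ℤ) - 3) % 6 := fs3 k
  have a4 : (((k + 4 : Fin 6).val : ℤ)) % 6 = ((k.val : ℤ) + 4) % 6 := fa4 k
  have hP : npt z s (some k) = pt z (s + ((k.val : ℤ) : ℝ)) := rfl
  -- `v = V (k - 1)`
  have hv0 : pt (npt z s (some k)) (s + (((k.val : ℤ) - 2 : ℤ) : ℝ)) =
      pt z (s + (((k.val : ℤ) - 1 : ℤ) : ℝ)) := by
    rw [hP]; exact step_l z s _ _ (by omega)
  -- `z` seen from `v`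
  have hz0 : pt (pt (npt z s (some k)) (s + (((k.val : ℤ) - 2 : ℤ) : ℝ)))
      (s + (((k.val : ℤ) - 4 : ℤ) : ℝ)) = z := by
    rw [hv0]; exact step_b z s _ _ (by omega)
  refine ⟨⟨σ, hσ, ?_⟩, ?_, ?_, ?_, ?_⟩
  · rw [f314] at hhex
    exact hhex
  · have hM := node_at z s (k + 1) ((k.val : ℤ) + 1) (by omega)
    have hq : pt (npt z s (some (k + 1))) (s + (((k.val : ℤ) + 4 : ℤ) : ℝ)) = z := by
      rw [hM]; exact step_b z s _ _ (by omega)
    refine rowG h hσ ((k.val : ℤ) - 2) ((k.val : ℤ) + 4) ((k.val : ℤ) + 5) ((k.val : ℤ) - 4)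
      (by omega) (by omega) (i := !t) ?_ ?_ (Or.inr ⟨by omega, by omega, rfl⟩)
      (Or.inr ⟨by omega, by omega, by simp⟩)
    · rw [hz0, hq]
    · rw [hv0, hq]; exact pt_cong z s (by omega)
  · have hM := node_at z s (k - 2) ((k.val : ℤ) - 2) (by omega)
    have hq : pt (npt z s (some (k - 2))) (s + (((k.val : ℤ) + 1 : ℤ) : ℝ)) = z := by
      rw [hM]; exact step_b z s _ _ (by omega)
    refine rowG h hσ ((k.val : ℤ) - 2) ((k.val : ℤ) + 1) ((k.val : ℤ) - 1) ((k.val : ℤ) - 4)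
      (by omega) (by omega) (i := !t) ?_ ?_ (Or.inr ⟨by omega, by omega, rfl⟩)
      (Or.inl ⟨by omega, by omega, rfl⟩)
    · rw [hz0, hq]
    · rw [hv0, hq]
  · have hM := node_at z s (k - 3) ((k.val : ℤ) - 3) (by omega)
    have hq : pt (npt z s (some (k - 3))) (s + (((k.val : ℤ) : ℤ) : ℝ)) = z := by
      rw [hM]; exact step_b z s _ _ (by omega)
    refine rowG h hσ ((k.val : ℤ) - 2) ((k.val : ℤ)) ((k.val : ℤ) - 1) ((k.val : ℤ) - 4)
      (by omega) (by omega) (i := !t) ?_ ?_ (Or.inr ⟨by omega, by omega, rfl⟩)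
      (Or.inl ⟨by omega, by omega, rfl⟩)
    · rw [hz0, hq]
    · rw [hv0, hq]
  · -- `q = V (k - 2)`
    have hM := node_at z s (k - 3) ((k.val : ℤ) - 3) (by omega)
    have hq : pt (npt z s (some (k - 3))) (s + (((k.val : ℤ) - 1 : ℤ) : ℝ)) =
        pt z (s + (((k.val : ℤ) - 2 : ℤ) : ℝ)) := by
      rw [hM, step_r z s _ _ (by omega)]
      congr 1; push_cast; ring
    have hq' : pt (pt z (s + (((k.val : ℤ) - 1 : ℤ) : ℝ))) (s + (((k.val : ℤ) - 3 : ℤ) : ℝ)) =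
        pt z (s + (((k.val : ℤ) - 2 : ℤ) : ℝ)) := by
      rw [step_l z s _ _ (by omega)]
      congr 1; push_cast; ring
    refine rowG h hσ ((k.val : ℤ) - 2) ((k.val : ℤ) - 1) ((k.val : ℤ)) ((k.val : ℤ) - 3)
      (by omega) (by omega) (i := !t) ?_ ?_ (Or.inr ⟨by omega, by omega, rfl⟩)
      (Or.inr ⟨by omega, by omega, by simp⟩)
    · rw [hv0, hq, hq']
    · rw [hv0, hq, step_r z s _ _ (by omega)]
      congr 1; push_cast; ring

end Vale.Agent.P032.H515
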