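import Vale.Agent.P032.H89.IsoA
import Vale.Agent.P032.H283.IsoBr
import Vale.Agent.P032.H93.IsoR
import Vale.Agent.P032.H515.Side

/-!
# P032, alternating points: the finite system at an isolated switching direction

`exists_sysJ` : an alternating point with an isolated switching direction, not biexact, with no
biexact point at distance one, gives a solution of helper283's `SysJ`.
-/

open Set Filter Topology Metric

noncomputable section

namespace Vale.Agent.P032.H515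

open Vale.Agent.P032.Six Vale.Agent.P032.S5.H767 Vale.Agent.P032.S5.H843 Vale.Agent.P032.H89

variable {U : Fin 6 → Set ℂ} {T : ℂ → Set (Fin 6)} {z : ℂ} {m : Fin 6}

theorem sf_eq (t : Bool) (s : ℝ) : sf t s = sd t s := by
  cases t
  · rfl
  · rfl

theorem Qs_eq (T : ℂ → Set (Fin 6)) (z : ℂ) (s : ℝ) : Qs T z s = QQ T z s := by
  funext t
  unfold Qs QQ
  rw [sf_eq]

theorem Qs_sub (T : ℂ → Set (Fin 6)) (z : ℂ) (s : ℝ) (t : Bool) {σ : State}
    (h : σ ∈ Qs T z s t) : σ ∈ H93.QL T z s ∪ H93.QR T z s := by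
  cases t
  · exact Or.inl h
  · exact Or.inr h

/-- **The finite system at an isolated switching direction.** -/
theorem exists_sysJ (h : Irr U T) (hmin : Mn U T) (hz : T z = {m}ᶜ) (hb : ¬ Biex T z)
    (hN : ∀ q, dist q z = 1 → ¬ Biex T q) {s₀ : ℝ} (hs₀ : s₀ ∈ Sg T z m)
    (hiso : ∃ ε > 0, ∀ s' ∈ Sg T z m, |s' - s₀| < ε → s' = s₀) :
    ∃ N Q, H283.SysJ m N Q := by
  have ha : Alt T z m := (biex_or_alt h hz).resolve_left hb
  obtain ⟨s, hs, ε, hε, hR, hL⟩ := exists_orient h ha hs₀ hiso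
  refine ⟨nd T z s, Qs T z s, ?_⟩
  have hQ : ∀ t, ∀ σ ∈ Qs T z s t, R1 m (nd T z s) σ := by
    intro t σ hσ
    obtain ⟨τ, ⟨hg, rfl⟩, hr⟩ := (Frequently.and_eventually hσ
      ((sf_le t s) (ev_R1 h hz ha hs))).exists
    exact hr hg
  have hJ : ∀ t, ∀ σ ∈ Qs T z s t, ∃ τ, JGen T z s τ ∧ st T z s τ = σ := by
    intro t σ hσ
    exact Frequently.exists hσ
  have hI := H93.isoR h z s
  refine ⟨hz, fun k => mem_nb h ha hs _, fun k => ?_, fun t σ hσ => (hQ t σ hσ).ne,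
    fun t σ hσ => (hQ t σ hσ).hex, fun t σ hσ => (hQ t σ hσ).inz, fun t σ hσ => (hQ t σ hσ).inv,
    fun t σ hσ => (hQ t σ hσ).inr, fun t σ hσ => (hQ t σ hσ).inl, fun t σ hσ => (hQ t σ hσ).two,
    fun t σ hσ => (hQ t σ hσ).gap, fun t σ hσ => (hQ t σ hσ).rz, fun t σ hσ => (hQ t σ hσ).rv,
    ?_, ?_, ?_, ?_,
    fun t σ hσ t' σ' hσ' k j => hI.rv σ' (Qs_sub T z s t' hσ') σ (Qs_sub T z s t hσ) k j,
    fun t σ hσ t' σ' hσ' k j => hI.rz σ' (Qs_sub T z s t' hσ') σ (Qs_sub T z s t hσ) k j,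
    fun t σ hσ t' σ' hσ' k j => hI.rr σ' (Qs_sub T z s t' hσ') σ (Qs_sub T z s t hσ) k j,
    fun t σ hσ t' σ' hσ' k j => hI.rl σ' (Qs_sub T z s t' hσ') σ (Qs_sub T z s t hσ) k j,
    fun a ham => ?_, fun t σ hσ k K hK hK3 => ?_, fun t σ hσ k => ?_, fun t σ hσ k => ?_⟩
  · by_contra hcon
    push Not at hcon
    exact hN _ (dist_pt z _) (biex_six h hcon)
  · intro t σ hσ j
    by_cases ht : t = true
    · have h1 : ∀ᶠ τ in sf t s, τ ∈ Ioo s (s + ε) := by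
        unfold sf
        rw [if_pos ht]
        exact Ioo_mem_nhdsGT (by linarith)
      obtain ⟨τ, ⟨hg, rfl⟩, hτ⟩ := (Frequently.and_eventually hσ h1).exists
      have h2 := hR τ hτ (hg none)
      have h3 := ha.int (hg none) (j.val : ℤ)
      show m ∈ T (pt z (τ + ((j.val : ℤ) : ℝ))) ↔ (Even j.val ↔ t = true)
      rw [show Even (j.val : ℤ) ↔ Even j.val from Int.even_coe_nat _] at h3
      have h3' : m ∈ T (pt z (τ + ((j.val : ℤ) : ℝ))) ↔ (m ∈ T (pt z τ) ↔ Even j.val) := h3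
      tauto
    · have h1 : ∀ᶠ τ in sf t s, τ ∈ Ioo (s - ε) s := by
        unfold sf
        rw [if_neg ht]
        exact Ioo_mem_nhdsLT (by linarith)
      obtain ⟨τ, ⟨hg, rfl⟩, hτ⟩ := (Frequently.and_eventually hσ h1).exists
      have h2 := hL τ hτ (hg none)
      have h3 := ha.int (hg none) (j.val : ℤ)
      show m ∈ T (pt z (τ + ((j.val : ℤ) : ℝ))) ↔ (Even j.val ↔ t = true)
      rw [show Even (j.val : ℤ) ↔ Even j.val from Int.even_coe_nat _] at h3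
      have h3' : m ∈ T (pt z (τ + ((j.val : ℤ) : ℝ))) ↔ (m ∈ T (pt z τ) ↔ Even j.val) := h3
      tauto
  · intro t
    obtain ⟨σ, hσ, -⟩ := freq_Q (T := T) (z := z) (s := s) (t := t) (P := fun _ => True)
      ((freq_jgen h z s t).mono fun τ hτ => ⟨hτ, trivial⟩)
    exact ⟨σ, hσ⟩
  · intro t σ hσ t' σ' hσ' p j j' h1 h2 h3
    obtain ⟨τ, hg, rfl⟩ := hJ t σ hσ
    obtain ⟨τ', hg', rfl⟩ := hJ t' σ' hσ'
    exact npt_biex hN hb s p ⟨_, _, ((hg p).shift (j.val : ℤ)).ext h1,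
      ((hg' p).shift (j'.val : ℤ)).ext h2, h3⟩
  · intro p hp a hap
    obtain ⟨d, e, hd, he, hda, hea, hde, hdq, heq⟩ := h.two_contacts hmin hp hap
    refine ⟨d, e, hd, he, hda, hea, hde, fun t σ hσ j => ?_⟩
    obtain ⟨τ, hg, rfl⟩ := hJ t σ hσ
    exact ⟨hdq _ (dist_pt _ _), heq _ (dist_pt _ _)⟩
  · rw [Qs_eq]
    exact s3_cr h z s (by rw [hz]; exact ham)
  · rw [Qs_eq] at hσ ⊢
    exact s1 h hσ k K hK hK3
  · have hhex := (hQ t σ hσ).hex (some k) (k + 2)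
    rw [Qs_eq] at hσ ⊢
    exact s2r h hσ k hhex
  · have hhex := (hQ t σ hσ).hex (some k) (k + 3)
    rw [Qs_eq] at hσ ⊢
    exact s2l h hσ k hhex

/-- **No isolated switching direction**, from the finite theorem in the number form (this is
helper535's `NoIsoSwitch`, unfolded). -/
theorem noIso_of (F : ∀ T Q, H766.Iso.Fr T Q → False) :
    ∀ (U : Fin 6 → Set ℂ) (T : ℂ → Set (Fin 6)), Irr U T → Mn U T → ∀ (z : ℂ) (m : Fin 6) (s : ℝ),
      T z = {m}ᶜ → ¬ Biex T z → (∀ q, dist q z = 1 → ¬ Biex T q) → s ∈ Sg T z m →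
      (∃ ε > 0, ∀ s' ∈ Sg T z m, |s' - s| < ε → s' = s) → False := by
  intro U T h hmin z m s hz hb hN hs hiso
  obtain ⟨N, Q, hS⟩ := exists_sysJ h hmin hz hb hN hs hiso
  exact H283.no_sysJ F m N Q hS

end Vale.Agent.P032.H515
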