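import Vale.Agent.P032.S5.H767.Raw

/-!
# P032: the metric lemma for two gaps of one type (no assumption on the colouring)

`x s t = pt (pt z (s + k)) (t + k + 2 i)` (`i = 1, -1`) is a point of the circle of the shell point
`pt z (s + k)`, near the shell point `pt z (s + k + i)` if `t` is near `s`.
Given two intervals `L < R < L' < R'` (shorter than 6 degrees together) and `η > 0`, every point
`w ≠ z` near `z` is at distance one from some `x s t` with `s` one of the four ends and `t` inside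
the interval of `s`, closer than `η` to `s`.
-/

open Set Filter Topology Metric

noncomputable section

namespace Vale.Agent.P032.H515

open Vale.Agent.P032.Six Vale.Agent.P032.S5.H767

theorem cis_re (x : ℝ) : (cis x).re = Real.cos x := by
  unfold cis; exact Complex.exp_ofReal_mul_I_re x

theorem cis_im (x : ℝ) : (cis x).im = Real.sin x := by
  unfold cis; exact Complex.exp_ofReal_mul_I_im x

theorem sq_dist (a b : ℂ) : dist a b ^ 2 = (a.re - b.re) ^ 2 + (a.im - b.im) ^ 2 := by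
  rw [dist_eq_norm, Complex.sq_norm, Complex.normSq_apply]
  simp only [Complex.sub_re, Complex.sub_im]
  ring

/-- distance of the second order point from the centre -/
theorem sq_dist_pt_pt (z : ℂ) (a b : ℝ) :
    dist (pt (pt z a) b) z ^ 2 = 2 + 2 * Real.cos ((b - a) * (Real.pi / 3)) := by
  rw [sq_dist]
  unfold pt
  simp only [Complex.add_re, Complex.add_im, cis_re, cis_im]
  have h : (b - a) * (Real.pi / 3) = b * (Real.pi / 3) - a * (Real.pi / 3) := by ring
  rw [h, Real.cos_sub]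
  have h1 := Real.sin_sq_add_cos_sq (a * (Real.pi / 3))
  have h2 := Real.sin_sq_add_cos_sq (b * (Real.pi / 3))
  linear_combination h1 + h2

theorem pt_pt_two (z : ℂ) (a : ℝ) : pt (pt z a) (a + 2) = pt z (a + 1) := by
  have h := pt_sum z a
  have h1 : pt (pt z a) (a + 2) = pt z a + pt z (a + 2) - z := by unfold pt; ring
  rw [h1, h]; ring

theorem pt_pt_neg_two (z : ℂ) (a : ℝ) : pt (pt z a) (a - 2) = pt z (a - 1) := by
  have h := pt_sum z (a - 2)
  have h1 : pt (pt z a) (a - 2) = pt z (a - 2) + pt z a - z := by unfold pt; ring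
  have e1 : a - 2 + 2 = a := by ring
  have e2 : a - 2 + 1 = a - 1 := by ring
  rw [e1, e2] at h
  rw [h1, h]; ring

/-- the cone argument: `D(z)`-discs of three shell points within a half circle -/
theorem cone {z w : ℂ} {a b c : ℝ} (hab : a < b) (hbc : b < c) (hac : c - a < 3)
    (ha : dist (pt z a) w ≤ 1) (hc : dist (pt z c) w ≤ 1) (hb : 1 ≤ dist (pt z b) w) : w = z := by
  have hpi := Real.pi_pos
  -- angles
  set A := a * (Real.pi / 3) with hA
  set B := b * (Real.pi / 3) with hB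
  set C := c * (Real.pi / 3) with hC
  have hBA : 0 < B - A := by
    have : B - A = (b - a) * (Real.pi / 3) := by rw [hA, hB]; ring
    rw [this]; exact mul_pos (by linarith) (by positivity)
  have hCB : 0 < C - B := by
    have : C - B = (c - b) * (Real.pi / 3) := by rw [hC, hB]; ring
    rw [this]; exact mul_pos (by linarith) (by positivity)
  have hCA : C - A < Real.pi := by
    have : C - A = (c - a) * (Real.pi / 3) := by rw [hC, hA]; ring
    rw [this]
    nlinarith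
  have s1 : 0 < Real.sin (B - A) := Real.sin_pos_of_pos_of_lt_pi hBA (by linarith)
  have s2 : 0 < Real.sin (C - B) := Real.sin_pos_of_pos_of_lt_pi hCB (by linarith)
  have s3 : 0 < Real.sin (C - A) := Real.sin_pos_of_pos_of_lt_pi (by linarith) hCA
  have c1 : Real.cos (B - A) < 1 := by
    rw [← Real.cos_zero]
    exact Real.cos_lt_cos_of_nonneg_of_le_pi le_rfl (by linarith) hBA
  have c2 : Real.cos (C - B) < 1 := by
    rw [← Real.cos_zero]
    exact Real.cos_lt_cos_of_nonneg_of_le_pi le_rfl (by linarith) hCB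
  have hsum : Real.sin (C - A) < Real.sin (C - B) + Real.sin (B - A) := by
    have e : C - A = (C - B) + (B - A) := by ring
    rw [e, Real.sin_add]
    nlinarith
  -- squared distances
  have sq : ∀ s : ℝ, dist (pt z s) w ^ 2 = 1 - 2 * ((w.re - z.re) * Real.cos (s * (Real.pi / 3)) +
      (w.im - z.im) * Real.sin (s * (Real.pi / 3))) + ((w.re - z.re) ^ 2 + (w.im - z.im) ^ 2) := by
    intro s
    rw [sq_dist]
    unfold pt
    simp only [Complex.add_re, Complex.add_im, cis_re, cis_im]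
    have h1 := Real.sin_sq_add_cos_sq (s * (Real.pi / 3))
    linear_combination h1
  set p := w.re - z.re with hp
  set q := w.im - z.im with hq
  have ka : p ^ 2 + q ^ 2 ≤ 2 * (p * Real.cos A + q * Real.sin A) := by
    have h1 := sq a
    have h2 : dist (pt z a) w ^ 2 ≤ 1 := by
      have := dist_nonneg (x := pt z a) (y := w); nlinarith
    rw [h1] at h2; rw [hA]; linarith
  have kc : p ^ 2 + q ^ 2 ≤ 2 * (p * Real.cos C + q * Real.sin C) := by
    have h1 := sq c
    have h2 : dist (pt z c) w ^ 2 ≤ 1 := by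
      have := dist_nonneg (x := pt z c) (y := w); nlinarith
    rw [h1] at h2; rw [hC]; linarith
  have kb : 2 * (p * Real.cos B + q * Real.sin B) ≤ p ^ 2 + q ^ 2 := by
    have h1 := sq b
    have h2 : 1 ≤ dist (pt z b) w ^ 2 := by nlinarith
    rw [h1] at h2; rw [hB]; linarith
  -- u(B) is in the cone
  have i1 : Real.sin (C - A) * Real.cos B =
      Real.sin (C - B) * Real.cos A + Real.sin (B - A) * Real.cos C := by
    rw [Real.sin_sub, Real.sin_sub, Real.sin_sub]; ring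
  have i2 : Real.sin (C - A) * Real.sin B =
      Real.sin (C - B) * Real.sin A + Real.sin (B - A) * Real.sin C := by
    rw [Real.sin_sub, Real.sin_sub, Real.sin_sub]; ring
  have key : Real.sin (C - A) * (2 * (p * Real.cos B + q * Real.sin B)) =
      Real.sin (C - B) * (2 * (p * Real.cos A + q * Real.sin A)) +
      Real.sin (B - A) * (2 * (p * Real.cos C + q * Real.sin C)) := by
    linear_combination 2 * p * i1 + 2 * q * i2
  have m1 := mul_le_mul_of_nonneg_left ka s2.le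
  have m2 := mul_le_mul_of_nonneg_left kc s1.le
  have m3 := mul_le_mul_of_nonneg_left kb s3.le
  have hz : p ^ 2 + q ^ 2 ≤ 0 := by
    by_contra hcon
    push Not at hcon
    have h5 := mul_pos (sub_pos.2 hsum) hcon
    have e : (Real.sin (C - B) + Real.sin (B - A) - Real.sin (C - A)) * (p ^ 2 + q ^ 2) =
        Real.sin (C - B) * (p ^ 2 + q ^ 2) + Real.sin (B - A) * (p ^ 2 + q ^ 2) -
        Real.sin (C - A) * (p ^ 2 + q ^ 2) := by ring
    rw [e] at h5
    linarith
  have hp0 : p = 0 := by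
    have h5 := sq_nonneg q
    have h6 : p ^ 2 = 0 := le_antisymm (by linarith) (sq_nonneg p)
    exact pow_eq_zero_iff (two_ne_zero) |>.1 h6
  have hq0 : q = 0 := by
    have h5 := sq_nonneg p
    have h6 : q ^ 2 = 0 := le_antisymm (by linarith) (sq_nonneg q)
    exact pow_eq_zero_iff (two_ne_zero) |>.1 h6
  apply Complex.ext
  · rw [hp] at hp0; linarith
  · rw [hq] at hq0; linarith

/-- intermediate value at an interior time -/
theorem ivt {f : ℝ → ℝ} (hf : Continuous f) {a b : ℝ} (hab : a < b)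
    (h : (f a < 1 ∧ 1 < f b) ∨ (1 < f a ∧ f b < 1)) : ∃ t, a < t ∧ t < b ∧ f t = 1 := by
  rcases h with ⟨h1, h2⟩ | ⟨h1, h2⟩
  · obtain ⟨t, ⟨ht1, ht2⟩, ht⟩ := intermediate_value_Icc hab.le hf.continuousOn
      (show (1 : ℝ) ∈ Icc (f a) (f b) from ⟨h1.le, h2.le⟩)
    refine ⟨t, lt_of_le_of_ne ht1 ?_, lt_of_le_of_ne ht2 ?_, ht⟩
    · rintro rfl; linarith
    · rintro rfl; linarith
  · obtain ⟨t, ⟨ht1, ht2⟩, ht⟩ := intermediate_value_Icc' hab.le hf.continuousOn
      (show (1 : ℝ) ∈ Icc (f b) (f a) from ⟨h2.le, h1.le⟩)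
    refine ⟨t, lt_of_le_of_ne ht1 ?_, lt_of_le_of_ne ht2 ?_, ht⟩
    · rintro rfl; linarith
    · rintro rfl; linarith

/-- `i (t - s) > 0`: the second order point is inside the unit circle of `z`, otherwise outside -/
theorem inside (z : ℂ) {s t : ℝ} {i : ℤ} (hi : i = 1 ∨ i = -1) (h1 : 0 < i * (t - s))
    (h2 : i * (t - s) < 1) (k : ℤ) :
    dist (pt (pt z (s + k)) (t + k + 2 * i)) z ^ 2 = 2 + 2 * Real.cos ((i * (t - s) + 2) * (Real.pi / 3))
      ∧ 2 + 2 * Real.cos ((i * (t - s) + 2) * (Real.pi / 3)) < 1 := by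
  have hpi := Real.pi_pos
  constructor
  · rw [sq_dist_pt_pt]
    congr 2
    rcases hi with rfl | rfl
    · congr 1; push_cast; ring
    · rw [← Real.cos_neg]; congr 1; push_cast; ring
  · have h3 : Real.cos ((i * (t - s) + 2) * (Real.pi / 3)) < Real.cos (2 * (Real.pi / 3)) :=
      Real.cos_lt_cos_of_nonneg_of_le_pi (by positivity) (by nlinarith) (by nlinarith)
    have h4 : Real.cos (2 * (Real.pi / 3)) = -1 / 2 := by
      rw [Real.cos_two_mul, Real.cos_pi_div_three]; norm_num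
    rw [h4] at h3
    linarith

theorem outside (z : ℂ) {s t : ℝ} {i : ℤ} (hi : i = 1 ∨ i = -1) (h1 : i * (t - s) < 0)
    (h2 : -1 < i * (t - s)) (k : ℤ) :
    dist (pt (pt z (s + k)) (t + k + 2 * i)) z ^ 2 = 2 + 2 * Real.cos ((i * (t - s) + 2) * (Real.pi / 3))
      ∧ 1 < 2 + 2 * Real.cos ((i * (t - s) + 2) * (Real.pi / 3)) := by
  have hpi := Real.pi_pos
  constructor
  · rw [sq_dist_pt_pt]
    congr 2
    rcases hi with rfl | rfl
    · congr 1; push_cast; ring
    · rw [← Real.cos_neg]; congr 1; push_cast; ring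
  · have h3 : Real.cos (2 * (Real.pi / 3)) < Real.cos ((i * (t - s) + 2) * (Real.pi / 3)) :=
      Real.cos_lt_cos_of_nonneg_of_le_pi (by nlinarith) (by nlinarith) (by nlinarith)
    have h4 : Real.cos (2 * (Real.pi / 3)) = -1 / 2 := by
      rw [Real.cos_two_mul, Real.cos_pi_div_three]; norm_num
    rw [h4] at h3
    linarith

theorem base_pt (z : ℂ) (s : ℝ) (k : ℤ) {i : ℤ} (hi : i = 1 ∨ i = -1) :
    pt (pt z (s + k)) (s + k + 2 * i) = pt z (s + k + i) := by
  rcases hi with rfl | rfl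
  · have := pt_pt_two z (s + k)
    push_cast
    rw [mul_one]; exact this
  · have := pt_pt_neg_two z (s + k)
    push_cast
    rw [show s + (k : ℝ) + 2 * (-1) = s + k - 2 by ring, show s + (k : ℝ) + -1 = s + k - 1 by ring]
    exact this

theorem cont (p w : ℂ) (c : ℝ) : Continuous fun t : ℝ => dist (pt p (t + c)) w :=
  ((continuous_pt p).comp (continuous_id.add continuous_const)).dist continuous_const

/-- one end, inside case: `t0` on the side of `i` -/
theorem step_in (z : ℂ) {s t0 : ℝ} {i : ℤ} (hi : i = 1 ∨ i = -1) (h1 : 0 < i * (t0 - s))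
    (h2 : i * (t0 - s) < 1) : ∃ d > 0, ∀ w, dist w z < d → ∀ k : ℤ,
      dist (pt (pt z (s + k)) (t0 + k + 2 * i)) w < 1 := by
  obtain ⟨h3, h4⟩ := inside z hi h1 h2 0
  set g := 2 + 2 * Real.cos ((i * (t0 - s) + 2) * (Real.pi / 3)) with hg
  have hg0 : 0 ≤ g := by rw [← h3]; positivity
  have hs : √g < 1 := by
    rw [Real.sqrt_lt' zero_lt_one]; linarith
  refine ⟨1 - √g, by linarith, fun w hw k => ?_⟩
  have h5 : dist (pt (pt z (s + k)) (t0 + k + 2 * i)) z = √g := by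
    have h6 := (inside z hi h1 h2 k).1
    rw [← hg] at h6
    rw [← h6, Real.sqrt_sq dist_nonneg]
  have := dist_triangle (pt (pt z (s + k)) (t0 + k + 2 * i)) z w
  rw [dist_comm z w, h5] at this
  linarith

theorem step_out (z : ℂ) {s t0 : ℝ} {i : ℤ} (hi : i = 1 ∨ i = -1) (h1 : i * (t0 - s) < 0)
    (h2 : -1 < i * (t0 - s)) : ∃ d > 0, ∀ w, dist w z < d → ∀ k : ℤ,
      1 < dist (pt (pt z (s + k)) (t0 + k + 2 * i)) w := by
  obtain ⟨h3, h4⟩ := outside z hi h1 h2 0
  set g := 2 + 2 * Real.cos ((i * (t0 - s) + 2) * (Real.pi / 3)) with hg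
  have hs : 1 < √g := by
    rw [Real.lt_sqrt zero_le_one]; linarith
  refine ⟨√g - 1, by linarith, fun w hw k => ?_⟩
  have h5 : dist (pt (pt z (s + k)) (t0 + k + 2 * i)) z = √g := by
    have h6 := (outside z hi h1 h2 k).1
    rw [← hg] at h6
    rw [← h6, Real.sqrt_sq dist_nonneg]
  have := dist_triangle (pt (pt z (s + k)) (t0 + k + 2 * i)) w z
  rw [h5] at this
  linarith

/-- both ends of one gap `(L, R)` and one side `i` -/
theorem gap (z : ℂ) {L R η : ℝ} (hLR : L < R) (hs : R - L < 1) (hη : 0 < η) {i : ℤ}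
    (hi : i = 1 ∨ i = -1) : ∃ d > 0, ∀ w, dist w z < d → ∀ k : ℤ,
      (∃ t, L < t ∧ t < min (L + η) R ∧ dist (pt (pt z (L + k)) (t + k + 2 * i)) w = 1) ∨
      (∃ t, max (R - η) L < t ∧ t < R ∧ dist (pt (pt z (R + k)) (t + k + 2 * i)) w = 1) ∨
      (i = 1 ∧ dist (pt z (L + k + i)) w ≤ 1 ∧ 1 ≤ dist (pt z (R + k + i)) w) ∨
      (i = -1 ∧ 1 ≤ dist (pt z (L + k + i)) w ∧ dist (pt z (R + k + i)) w ≤ 1) := by
  have hm1 : L < min (L + η) R := lt_min (by linarith) hLR
  have hm2 : max (R - η) L < R := max_lt (by linarith) hLR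
  obtain ⟨t1, ht1, ht1'⟩ := exists_between hm1
  obtain ⟨t2, ht2, ht2'⟩ := exists_between hm2
  have ht1R : t1 < R := lt_of_lt_of_le ht1' (min_le_right _ _)
  have ht2L : L < t2 := lt_of_le_of_lt (le_max_right _ _) ht2
  have ass : ∀ (t : ℝ) (k j : ℤ), t + k + 2 * j = t + (k + 2 * (j : ℝ)) := fun t k j => by ring
  rcases hi with rfl | rfl
  · obtain ⟨d1, hd1, H1⟩ := step_in z (s := L) (t0 := t1) (i := 1) (Or.inl rfl)
      (by push_cast; linarith) (by push_cast; linarith)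
    obtain ⟨d2, hd2, H2⟩ := step_out z (s := R) (t0 := t2) (i := 1) (Or.inl rfl)
      (by push_cast; linarith) (by push_cast; linarith)
    refine ⟨min d1 d2, lt_min hd1 hd2, fun w hw k => ?_⟩
    have hw1 := H1 w (lt_of_lt_of_le hw (min_le_left _ _)) k
    have hw2 := H2 w (lt_of_lt_of_le hw (min_le_right _ _)) k
    rcases lt_or_ge 1 (dist (pt z (L + k + (1 : ℤ))) w) with h | h
    · left
      rw [← base_pt z L k (Or.inl rfl), ass] at h
      rw [ass] at hw1
      obtain ⟨t, h1, h2, h3⟩ := ivt (cont (pt z (L + k)) w (k + 2 * ((1 : ℤ) : ℝ))) ht1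
        (Or.inr ⟨h, hw1⟩)
      exact ⟨t, h1, h2.trans ht1', by rw [ass]; exact h3⟩
    rcases lt_or_ge (dist (pt z (R + k + (1 : ℤ))) w) 1 with h' | h'
    · right; left
      rw [← base_pt z R k (Or.inl rfl), ass] at h'
      rw [ass] at hw2
      obtain ⟨t, h1, h2, h3⟩ := ivt (cont (pt z (R + k)) w (k + 2 * ((1 : ℤ) : ℝ))) ht2'
        (Or.inr ⟨hw2, h'⟩)
      exact ⟨t, ht2.trans h1, h2, by rw [ass]; exact h3⟩
    exact Or.inr (Or.inr (Or.inl ⟨rfl, h, h'⟩))
  · obtain ⟨d1, hd1, H1⟩ := step_out z (s := L) (t0 := t1) (i := -1) (Or.inr rfl)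
      (by push_cast; linarith) (by push_cast; linarith)
    obtain ⟨d2, hd2, H2⟩ := step_in z (s := R) (t0 := t2) (i := -1) (Or.inr rfl)
      (by push_cast; linarith) (by push_cast; linarith)
    refine ⟨min d1 d2, lt_min hd1 hd2, fun w hw k => ?_⟩
    have hw1 := H1 w (lt_of_lt_of_le hw (min_le_left _ _)) k
    have hw2 := H2 w (lt_of_lt_of_le hw (min_le_right _ _)) k
    rcases lt_or_ge (dist (pt z (L + k + (-1 : ℤ))) w) 1 with h | h
    · left
      rw [← base_pt z L k (Or.inr rfl), ass] at h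
      rw [ass] at hw1
      obtain ⟨t, h1, h2, h3⟩ := ivt (cont (pt z (L + k)) w (k + 2 * ((-1 : ℤ) : ℝ))) ht1
        (Or.inl ⟨h, hw1⟩)
      exact ⟨t, h1, h2.trans ht1', by rw [ass]; exact h3⟩
    rcases lt_or_ge 1 (dist (pt z (R + k + (-1 : ℤ))) w) with h' | h'
    · right; left
      rw [← base_pt z R k (Or.inr rfl), ass] at h'
      rw [ass] at hw2
      obtain ⟨t, h1, h2, h3⟩ := ivt (cont (pt z (R + k)) w (k + 2 * ((-1 : ℤ) : ℝ))) ht2'
        (Or.inl ⟨hw2, h'⟩)
      exact ⟨t, ht2.trans h1, h2, by rw [ass]; exact h3⟩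
    exact Or.inr (Or.inr (Or.inr ⟨rfl, h, h'⟩))

/-- **the metric lemma**: two gaps, all six shell points, both sides -/
theorem mb (z : ℂ) {L R L' R' η : ℝ} (h1 : L < R) (h2 : R < L') (h3 : L' < R')
    (h4 : R' - L < 1) (hη : 0 < η) :
    ∃ d > 0, ∀ w, w ≠ z → dist w z < d → ∀ k i : ℤ, (i = 1 ∨ i = -1) →
      ∃ s t : ℝ, dist (pt (pt z (s + k)) (t + k + 2 * i)) w = 1 ∧
        ((s = L ∧ L < t ∧ t < min (L + η) R) ∨ (s = R ∧ max (R - η) L < t ∧ t < R) ∨
         (s = L' ∧ L' < t ∧ t < min (L' + η) R') ∨ (s = R' ∧ max (R' - η) L' < t ∧ t < R')) := by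
  obtain ⟨d1, hd1, H1⟩ := gap z h1 (by linarith) hη (i := 1) (Or.inl rfl)
  obtain ⟨d2, hd2, H2⟩ := gap z h3 (by linarith) hη (i := 1) (Or.inl rfl)
  obtain ⟨d3, hd3, H3⟩ := gap z h1 (by linarith) hη (i := -1) (Or.inr rfl)
  obtain ⟨d4, hd4, H4⟩ := gap z h3 (by linarith) hη (i := -1) (Or.inr rfl)
  refine ⟨min (min d1 d2) (min d3 d4), lt_min (lt_min hd1 hd2) (lt_min hd3 hd4),
    fun w hwz hw k i hi => ?_⟩
  have w1 : dist w z < d1 := lt_of_lt_of_le hw ((min_le_left _ _).trans (min_le_left _ _))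
  have w2 : dist w z < d2 := lt_of_lt_of_le hw ((min_le_left _ _).trans (min_le_right _ _))
  have w3 : dist w z < d3 := lt_of_lt_of_le hw ((min_le_right _ _).trans (min_le_left _ _))
  have w4 : dist w z < d4 := lt_of_lt_of_le hw ((min_le_right _ _).trans (min_le_right _ _))
  have G1 : (∃ t, L < t ∧ t < min (L + η) R ∧ dist (pt (pt z (L + k)) (t + k + 2 * i)) w = 1) ∨
      (∃ t, max (R - η) L < t ∧ t < R ∧ dist (pt (pt z (R + k)) (t + k + 2 * i)) w = 1) ∨
      (i = 1 ∧ dist (pt z (L + k + i)) w ≤ 1 ∧ 1 ≤ dist (pt z (R + k + i)) w) ∨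
      (i = -1 ∧ 1 ≤ dist (pt z (L + k + i)) w ∧ dist (pt z (R + k + i)) w ≤ 1) := by
    rcases hi with rfl | rfl
    · exact H1 w w1 k
    · exact H3 w w3 k
  have G2 : (∃ t, L' < t ∧ t < min (L' + η) R' ∧
        dist (pt (pt z (L' + k)) (t + k + 2 * i)) w = 1) ∨
      (∃ t, max (R' - η) L' < t ∧ t < R' ∧ dist (pt (pt z (R' + k)) (t + k + 2 * i)) w = 1) ∨
      (i = 1 ∧ dist (pt z (L' + k + i)) w ≤ 1 ∧ 1 ≤ dist (pt z (R' + k + i)) w) ∨
      (i = -1 ∧ 1 ≤ dist (pt z (L' + k + i)) w ∧ dist (pt z (R' + k + i)) w ≤ 1) := by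
    rcases hi with rfl | rfl
    · exact H2 w w2 k
    · exact H4 w w4 k
  rcases G1 with ⟨t, a1, a2, a3⟩ | ⟨t, a1, a2, a3⟩ | g1 | g1
  · exact ⟨L, t, a3, Or.inl ⟨rfl, a1, a2⟩⟩
  · exact ⟨R, t, a3, Or.inr (Or.inl ⟨rfl, a1, a2⟩)⟩
  · rcases G2 with ⟨t, a1, a2, a3⟩ | ⟨t, a1, a2, a3⟩ | g2 | g2
    · exact ⟨L', t, a3, Or.inr (Or.inr (Or.inl ⟨rfl, a1, a2⟩))⟩
    · exact ⟨R', t, a3, Or.inr (Or.inr (Or.inr ⟨rfl, a1, a2⟩))⟩
    · exact absurd (cone (a := L + k + i) (b := R + k + i) (c := L' + k + i) (by linarith)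
        (by linarith) (by linarith) g1.2.1 g2.2.1 g1.2.2) hwz
    · have := g1.1.symm.trans g2.1; omega
  · rcases G2 with ⟨t, a1, a2, a3⟩ | ⟨t, a1, a2, a3⟩ | g2 | g2
    · exact ⟨L', t, a3, Or.inr (Or.inr (Or.inl ⟨rfl, a1, a2⟩))⟩
    · exact ⟨R', t, a3, Or.inr (Or.inr (Or.inr ⟨rfl, a1, a2⟩))⟩
    · have := g1.1.symm.trans g2.1; omega
    · exact absurd (cone (a := R + k + i) (b := L' + k + i) (c := R' + k + i) (by linarith)
        (by linarith) (by linarith) g1.2.2 g2.2.2 g2.2.1) hwz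

/-- short form -/
theorem mb' (z : ℂ) {L R L' R' η : ℝ} (h1 : L < R) (h2 : R < L') (h3 : L' < R')
    (h4 : R' - L < 1) (hη : 0 < η) :
    ∃ d > 0, ∀ w, w ≠ z → dist w z < d → ∀ k i : ℤ, (i = 1 ∨ i = -1) →
      ∃ s t : ℝ, dist (pt (pt z (s + k)) (t + k + 2 * i)) w = 1 ∧ |t - s| < η ∧ t ≠ s ∧
        (((s = L ∨ s = R) ∧ L < t ∧ t < R) ∨ ((s = L' ∨ s = R') ∧ L' < t ∧ t < R')) := by
  obtain ⟨d, hd, H⟩ := mb z h1 h2 h3 h4 hη
  refine ⟨d, hd, fun w hwz hw k i hi => ?_⟩
  obtain ⟨s, t, hst, h⟩ := H w hwz hw k i hi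
  refine ⟨s, t, hst, ?_⟩
  rcases h with ⟨rfl, a, b⟩ | ⟨rfl, a, b⟩ | ⟨rfl, a, b⟩ | ⟨rfl, a, b⟩
  · have b1 := lt_of_lt_of_le b (min_le_left _ _)
    have b2 := lt_of_lt_of_le b (min_le_right _ _)
    exact ⟨by rw [abs_lt]; constructor <;> linarith, a.ne', Or.inl ⟨Or.inl rfl, a, b2⟩⟩
  · have b1 := lt_of_le_of_lt (le_max_left _ _) a
    have b2 := lt_of_le_of_lt (le_max_right _ _) a
    exact ⟨by rw [abs_lt]; constructor <;> linarith, b.ne, Or.inl ⟨Or.inr rfl, b2, b⟩⟩
  · have b1 := lt_of_lt_of_le b (min_le_left _ _)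
    have b2 := lt_of_lt_of_le b (min_le_right _ _)
    exact ⟨by rw [abs_lt]; constructor <;> linarith, a.ne', Or.inr ⟨Or.inl rfl, a, b2⟩⟩
  · have b1 := lt_of_le_of_lt (le_max_left _ _) a
    have b2 := lt_of_le_of_lt (le_max_right _ _) a
    exact ⟨by rw [abs_lt]; constructor <;> linarith, b.ne, Or.inr ⟨Or.inr rfl, b2, b⟩⟩

end Vale.Agent.P032.H515
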